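import Vale.Agent.P166F.Low.Cascade.Gauss

/-!
P166: the nested averages of several Gaussian fields as averages of their tower, and the bridge between
the two kinds of series.
-/

namespace Vale.Agent.P166F.Low.Cascade

open MeasureTheory ProbabilityTheory Set Filter Tower Vale.Agent.P157.Low

variable {ι : Type} [Fintype ι] {r n : ℕ} {C : Casc r} {d : Fin (r + 1) → ℝ}

lemma lvl_eq {j : ℕ} (h : j ≤ r) : lvl r j = ⟨j, by omega⟩ := Fin.ext (lvl_val h)

lemma val_potV (u : (ι → ℝ) → ℝ) :
    ∀ k, k ≤ r + 1 → (gaussTower ι C d).val (r + 1) u k = potV C.cdf d u k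
  | 0, _ => rfl
  | k + 1, hk => by
    have hl : lvl r (r + 1 - (k + 1)) = ⟨r - k, by omega⟩ := by
      rw [lvl_eq (by omega)]; exact Fin.ext (by simp)
    funext y
    have ih := val_potV u k (show k ≤ r + 1 by omega)
    simp only [Tower.val, ih]
    simp only [potV, dif_pos (show k ≤ r by omega), gaussTower, hl, lavg, heatV, normal]
    split_ifs <;> rfl

lemma tstep_heat (u η : (ι → ℝ) → ℝ) {k : ℕ} (hk : k ≤ r) (y : ι → ℝ) :
    (gaussTower ι C d).tstep (r + 1) u (r - k) η y =
      heatV (fun x => Real.exp (C.cdf ⟨r - k, by omega⟩ * potV C.cdf d u k x) * η x)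
          (d ⟨r - k, by omega⟩) y /
        heatV (fun x => Real.exp (C.cdf ⟨r - k, by omega⟩ * potV C.cdf d u k x))
          (d ⟨r - k, by omega⟩) y := by
  have hl : lvl r (r - k) = ⟨r - k, by omega⟩ := lvl_eq (by omega)
  have he : r + 1 - (r - k + 1) = k := by omega
  simp only [Tower.tstep, Tower.edge, Tower.norm, Tower.lev, he, val_potV u k (show k ≤ r + 1 by omega),
    div_mul_eq_mul_div, integral_div]
  simp only [gaussTower, hl, heatV, normal]

lemma up_insV (u η : (ι → ℝ) → ℝ) :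
    ∀ k, k ≤ r + 1 → (gaussTower ι C d).up (r + 1) u η (r + 1) k = insV C.cdf d u η k
  | 0, _ => rfl
  | k + 1, hk => by
    funext y
    have hkr : k ≤ r := by omega
    rw [Tower.up, up_insV u η k (by omega), show r + 1 - (k + 1) = r - k by omega,
      tstep_heat u _ hkr]
    simp only [insV, dif_pos hkr]

lemma up_trunc (u η : (ι → ℝ) → ℝ) (j : Fin (r + 1)) :
    ∀ k, k ≤ (j : ℕ) + 1 → (gaussTower ι C d).up (r + 1) u η ((j : ℕ) + 1) k =
        insV (fun i : Fin ((j : ℕ) + 1) => C.cdf ⟨i, by omega⟩)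
          (fun i : Fin ((j : ℕ) + 1) => d ⟨i, by omega⟩) (potV C.cdf d u (r - (j : ℕ))) η k ∧
      potV (fun i : Fin ((j : ℕ) + 1) => C.cdf ⟨i, by omega⟩)
          (fun i : Fin ((j : ℕ) + 1) => d ⟨i, by omega⟩) (potV C.cdf d u (r - (j : ℕ))) k =
        potV C.cdf d u (r - (j : ℕ) + k)
  | 0, _ => ⟨rfl, rfl⟩
  | k + 1, hk => by
    have hj := j.isLt
    obtain ⟨h1, h2⟩ := up_trunc u η j k (by omega)
    have hkj : k ≤ (j : ℕ) := by omega
    have hkr : r - (j : ℕ) + k ≤ r := by omega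
    have hi : (⟨(j : ℕ) - k, by omega⟩ : Fin (r + 1)) = ⟨r - (r - (j : ℕ) + k), by omega⟩ :=
      Fin.ext (by simp; omega)
    constructor
    · funext y
      rw [Tower.up, h1, show (j : ℕ) + 1 - (k + 1) = r - (r - (j : ℕ) + k) by omega,
        tstep_heat u _ hkr]
      simp only [insV, dif_pos hkj, h2, hi]
    · rw [← add_assoc]
      funext y
      simp only [potV, dif_pos hkj, dif_pos hkr, h2, hi]

section shift

variable {S Ω : Type} [MeasurableSpace S] [MeasurableSpace Ω] {T : Tower S Ω} {R : ℕ} {U : S → ℝ}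
  {L c : ℝ}

lemma val_shift (hU : Bdd U L) : ∀ k y, T.val R (fun x => U x + c) k y = T.val R U k y + c
  | 0, _ => rfl
  | k + 1, y => by
    simp only [Tower.val, val_shift hU k, lavg]
    split_ifs with h
    · rw [integral_add (integrable_comp (bdd_val hU k) _ y) (integrable_const _)]
      simp
    · have h0 : ∫ ξ, Real.exp (T.m (R - (k + 1)) * T.val R U k (T.step (R - (k + 1)) y ξ)) ∂T.μ ≠ 0 :=
        ((Real.exp_pos _).trans_le (integral_exp_mem (bdd_val hU k) _ y).1).ne'
      simp only [mul_add, Real.exp_add, integral_mul_const]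
      rw [Real.log_mul h0 (Real.exp_pos _).ne', Real.log_exp]
      field_simp

lemma up_shift (hU : Bdd U L) (η : S → ℝ) (l : ℕ) :
    ∀ k, T.up R (fun x => U x + c) η l k = T.up R U η l k
  | 0 => rfl
  | k + 1 => by
    funext y
    rw [Tower.up, Tower.up, up_shift hU η l k]
    simp only [Tower.tstep, Tower.edge, Tower.norm, Tower.lev, val_shift hU, mul_add, Real.exp_add,
      integral_mul_const, mul_div_mul_right _ _ (Real.exp_pos _).ne']

end shift

lemma measurable_heatV {F : (ι → ℝ) → ℝ} (hF : Measurable F) (t : ℝ) : Measurable (heatV F t) := by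
  have h : Measurable fun p : (ι → ℝ) × (ι → ℝ) => fun i => p.1 i + Real.sqrt t * p.2 i := by fun_prop
  exact (StronglyMeasurable.integral_prod_right' (ν := normal ι)
    (f := fun p : (ι → ℝ) × (ι → ℝ) => F fun i => p.1 i + Real.sqrt t * p.2 i)
    (hF.comp h).stronglyMeasurable).measurable

lemma integrable_heatV {F : (ι → ℝ) → ℝ} {B : ℝ} (hF : Bdd F B) (t : ℝ) (y : ι → ℝ) :
    Integrable (fun z => F fun i => y i + Real.sqrt t * z i)
      (Measure.pi fun _ : ι => gaussianReal 0 1) :=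
  Integrable.mono' (integrable_const B) (hF.meas.comp (by fun_prop)).aestronglyMeasurable
    (Eventually.of_forall fun z => hF.le _)

lemma bdd_heatV {F : (ι → ℝ) → ℝ} {B : ℝ} (hF : Bdd F B) (t : ℝ) : Bdd (heatV F t) B :=
  ⟨measurable_heatV hF.meas t, fun y => (norm_integral_le_of_norm_le_const
    (μ := Measure.pi fun _ : ι => gaussianReal 0 1) (f := fun z => F fun i => y i + Real.sqrt t * z i)
    (Eventually.of_forall fun z => hF.le _)).trans_eq (by simp)⟩

lemma heatV_mono {F G : (ι → ℝ) → ℝ} {B B' : ℝ} (hF : Bdd F B) (hG : Bdd G B') (h : ∀ x, F x ≤ G x)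
    (t : ℝ) (y : ι → ℝ) : heatV F t y ≤ heatV G t y :=
  integral_mono (integrable_heatV hF t y) (integrable_heatV hG t y) fun _ => h _

section weight

variable {rest M : ℝ} {Φ θ : (ι → ℝ) → ℝ} {B : ℝ}

lemma wgt_M (hΦ : Wgt M Φ) : 1 ≤ M := (hΦ.range 0).1.trans (hΦ.range 0).2

lemma wgt_bdd (hΦ : Wgt M Φ) : Bdd Φ M :=
  ⟨hΦ.cont.measurable, fun y => abs_le.2 ⟨by linarith [wgt_M hΦ, (hΦ.range y).1], (hΦ.range y).2⟩⟩

lemma heat_range (hΦ : Wgt M Φ) (t : ℝ) (y : ι → ℝ) : 1 ≤ heatV Φ t y ∧ heatV Φ t y ≤ M := by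
  constructor
  · simpa [heatV] using heatV_mono (F := fun _ => 1) (B := 1) ⟨measurable_const, fun _ => by simp⟩
      (wgt_bdd hΦ) (fun x => (hΦ.range x).1) t y
  · simpa [heatV] using heatV_mono (G := fun _ => M) (B' := M) (wgt_bdd hΦ)
      ⟨measurable_const, fun _ => by simp [abs_of_nonneg (zero_le_one.trans (wgt_M hΦ))]⟩
      (fun x => (hΦ.range x).2) t y

lemma bdd_of_BCV (hθ : BCV θ) : ∃ B, Bdd θ B := by
  obtain ⟨hc, B, hB⟩ := hθ
  exact ⟨B, hc.measurable, hB⟩

/-- The residual part of the weight. -/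
noncomputable def xfun (Φ : (ι → ℝ) → ℝ) (rest M : ℝ) (y : ι → ℝ) : ℝ := 1 - heatV Φ rest y / M

lemma bdd_xfun (hΦ : Wgt M Φ) (rest : ℝ) : Bdd (xfun Φ rest M) (1 - 1 / M) := by
  have hM := wgt_M hΦ
  refine ⟨measurable_const.sub ((measurable_heatV hΦ.cont.measurable rest).div_const _), fun y => ?_⟩
  obtain ⟨h1, h2⟩ := heat_range hΦ rest y
  have e1 : 1 / M ≤ heatV Φ rest y / M := div_le_div_of_nonneg_right h1 (by linarith)
  have e2 : heatV Φ rest y / M ≤ 1 := (div_le_one (by linarith)).2 h2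
  rw [abs_le, xfun]
  constructor <;> linarith [(div_le_one (by linarith : (0 : ℝ) < M)).2 hM]

lemma log_xfun (hΦ : Wgt M Φ) (rest : ℝ) :
    (fun y => Real.log (1 - xfun Φ rest M y)) = fun y => leafU Φ rest y + -Real.log M := by
  funext y
  have hM := wgt_M hΦ
  rw [xfun, sub_sub_cancel, Real.log_div (by linarith [(heat_range hΦ rest y).1]) (by linarith), leafU]
  ring

lemma bdd_leafU (hΦ : Wgt M Φ) (rest : ℝ) : Bdd (leafU Φ rest) (Real.log M) := by
  refine ⟨(measurable_heatV hΦ.cont.measurable rest).log, fun y => ?_⟩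
  obtain ⟨h1, h2⟩ := heat_range hΦ rest y
  rw [leafU, abs_of_nonneg (Real.log_nonneg h1)]
  exact Real.log_le_log (by linarith) h2

lemma bdd_leafI (hΦ : Wgt M Φ) (hθ : Bdd θ B) (rest : ℝ) : Bdd (leafI Φ θ rest) B := by
  refine ⟨(measurable_heatV (hθ.meas.mul hΦ.cont.measurable) rest).div
    (measurable_heatV hΦ.cont.measurable rest), fun y => ?_⟩
  have h1 := (heat_range hΦ rest y).1
  rw [leafI, abs_div, abs_of_pos (by linarith : (0 : ℝ) < heatV Φ rest y), div_le_iff₀ (by linarith),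
    heatV, heatV, ← integral_const_mul]
  refine abs_integral_le_integral_abs.trans (integral_mono
    (integrable_heatV (Tower.bdd_mul hθ (wgt_bdd hΦ)) rest y).abs
    ((integrable_heatV (wgt_bdd hΦ) rest y).const_mul B) fun z => ?_)
  simp only [abs_mul]
  rw [abs_of_pos (by linarith [(hΦ.range fun i => y i + Real.sqrt rest * z i).1] :
    (0 : ℝ) < Φ fun i => y i + Real.sqrt rest * z i)]
  exact mul_le_mul_of_nonneg_right (hθ.le _) (by linarith [(hΦ.range fun i => y i + Real.sqrt rest * z i).1])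

lemma heat_compl (hΦ : Wgt M Φ) (rest : ℝ) :
    heatV (fun x => 1 - Φ x / M) rest = xfun Φ rest M := by
  funext y
  simp only [heatV, xfun]
  rw [integral_sub (integrable_const _) ((integrable_heatV (wgt_bdd hΦ) rest y).div_const _),
    integral_div]
  simp

lemma heat_insert (hΦ : Wgt M Φ) (rest : ℝ) (y : ι → ℝ) :
    heatV (fun x => θ x * (Φ x / M)) rest y = leafI Φ θ rest y * (1 - xfun Φ rest M y) := by
  have h1 := (heat_range hΦ rest y).1
  have hM := wgt_M hΦ
  simp only [leafI, xfun, sub_sub_cancel]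
  rw [div_mul_div_comm, show heatV (fun x => θ x * (Φ x / M)) rest y =
    heatV (fun x => θ x * Φ x) rest y / M by simp only [heatV, ← mul_div_assoc, integral_div]]
  have : heatV Φ rest y ≠ 0 := by linarith
  field_simp

lemma sum_GV (hd : ∀ j, 0 ≤ d j) (hr : 0 ≤ rest) (C : Casc r) (w : LMat r n → ℝ)
    {f : Fin n → (ι → ℝ) → ℝ} (hf : ∀ a, ∃ B, Bdd (f a) B) :
    ∑ A, C.P n A * (w A * GV (ccov d rest A) (fun h => ∏ a, f a (h a))) =
      ∑ A, C.P n A * (w A * (gaussTower ι C d).plain A fun a => heatV (f a) rest) := by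
  refine Finset.sum_congr rfl fun A _ => ?_
  rcases eq_or_ne (C.P n A) 0 with h | h
  · simp [h]
  · rw [GV_prod (C := C) (C.good h) hd hr hf]

/-- The series of insertions as an averaged tilt. -/
theorem cascIns_eq (hd : ∀ j, 0 ≤ d j) (hr : 0 ≤ rest) (hΦ : Wgt M Φ) (Ψ : LMat r n → ℝ)
    {θ : Fin n → (ι → ℝ) → ℝ} (hθ : ∀ a, Bdd (θ a) B) :
    cascIns C d rest M Φ Ψ θ =
      (gaussTower ι C d).av C (fun y => leafU Φ rest y + -Real.log M) Ψ
        fun a => leafI Φ (θ a) rest := by
  have hM := wgt_M hΦ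
  rw [← log_xfun hΦ rest, ← Tower.ratio_series gauss_fits (bdd_xfun hΦ rest)
    (sub_nonneg.2 ((div_le_one (by linarith)).2 hM)) (sub_lt_self 1 (by positivity))
    Ψ (B := B) fun a => bdd_leafI hΦ (hθ a) rest, cascIns]
  refine tsum_congr fun k => ?_
  congr 1
  set f : Fin (n + k) → (ι → ℝ) → ℝ :=
    Fin.append (fun a x => θ a x * (Φ x / M)) (fun _ x => 1 - Φ x / M)
  have he : ratioTermV M Φ θ = fun h : Fin (n + k) → ι → ℝ => ∏ a, f a (h a) := by
    funext h
    rw [ratioTermV, Fin.prod_univ_add]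
    simp [f]
  have hf : ∀ a, ∃ B', Bdd (f a) B' := fun a => a.addCases
    (fun i => by
      simp only [f, Fin.append_left]
      refine ⟨B * 1, Tower.bdd_mul (hθ i) ⟨hΦ.cont.measurable.div_const _, fun x => ?_⟩⟩
      rw [abs_div, abs_of_pos (by linarith : (0 : ℝ) < M), div_le_one (by linarith)]
      exact (wgt_bdd hΦ).le x)
    fun i => by
      simp only [f, Fin.append_right]
      exact ⟨2, measurable_const.sub (hΦ.cont.measurable.div_const _), fun x => by
        have e2 : |Φ x / M| ≤ 1 := by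
          rw [abs_div, abs_of_pos (by linarith : (0 : ℝ) < M), div_le_one (by linarith)]
          exact (wgt_bdd hΦ).le x
        exact (abs_sub _ _).trans (by rw [abs_one]; linarith)⟩
  rw [he, sum_GV hd hr C _ hf]
  refine Finset.sum_congr rfl fun A _ => ?_
  congr 3
  funext a
  refine a.addCases (fun i => ?_) fun i => ?_
  · simp only [f, Fin.append_left]
    exact funext fun y => heat_insert hΦ rest y
  · simp only [f, Fin.append_right]
    exact heat_compl hΦ rest

/-- The log series as a nested value. -/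
theorem cascLog_root (hd : ∀ j, 0 ≤ d j) (hr : 0 ≤ rest) (hΦ : Wgt M Φ) :
    cascLog C d rest M Φ = potV C.cdf d (leafU Φ rest) (r + 1) 0 := by
  have hM := wgt_M hΦ
  have hs := Tower.log_series (gauss_fits (ι := ι) (C := C) (d := d)) (bdd_xfun hΦ rest)
    (sub_nonneg.2 ((div_le_one (by linarith)).2 hM)) (sub_lt_self 1 (by positivity))
  rw [log_xfun hΦ rest] at hs
  simp only [Tower.lev, Nat.sub_zero, val_shift (bdd_leafU hΦ rest), val_potV _ (r + 1) le_rfl] at hs
  rw [cascLog, logSerV]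
  have e : ∀ k : ℕ, ∑ A, C.P (k + 1) A * GV (ccov d rest A)
      (fun h => ∏ l, (1 - Φ (h l) / M)) =
      ∑ A, C.P (k + 1) A * (gaussTower ι C d).plain A fun _ => xfun Φ rest M := fun k => by
    have := sum_GV (n := k + 1) hd hr C (fun _ => 1) (f := fun _ x => 1 - Φ x / M) fun _ =>
      ⟨2, measurable_const.sub (hΦ.cont.measurable.div_const _), fun x => by
        have e2 : |Φ x / M| ≤ 1 := by
          rw [abs_div, abs_of_pos (by linarith : (0 : ℝ) < M), div_le_one (by linarith)]
          exact (wgt_bdd hΦ).le x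
        exact (abs_sub _ _).trans (by rw [abs_one]; linarith)⟩
    simpa [heat_compl hΦ] using this
  simp only [e]
  rw [hs]
  simp [gaussTower]

end weight

end Vale.Agent.P166F.Low.Cascade
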