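import Vale.Agent.P166F.Low.Cascade.Insert

/-!
P166: raising the weight moves tilted averages by no more than the value gains.
-/

namespace Vale.Agent.P166F.Low.Cascade

open MeasureTheory Set Filter Tower Vale.Agent.P157.Low

variable {r n : ℕ} {S Ω : Type} [MeasurableSpace S] [MeasurableSpace Ω] {T : Tower S Ω} {C : Casc r}
  {U : S → ℝ} {L B : ℝ}

namespace Tower

lemma up_comp (η : S → ℝ) (R l a : ℕ) :
    ∀ k, T.up R U (T.up R U η l a) (l - a) k = T.up R U η l (a + k)
  | 0 => rfl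
  | k + 1 => by
    rw [Tower.up, up_comp η R l a k, ← add_assoc, Tower.up, show l - a - (k + 1) = l - (a + k + 1) by omega]

lemma tilt_mono {A : LMat r n} (hU : Bdd U L) (hL : 0 ≤ L) {g h : Fin n → S → ℝ} {Bg Bh : ℝ}
    (hg : ∀ a, Bdd (g a) Bg) (hh : ∀ a, Bdd (h a) Bh) (hle : ∀ a y, |g a y| ≤ h a y) :
    |T.tilt U A g| ≤ T.tilt U A h := by
  refine abs_integral_le_integral_abs.trans (integral_mono
    (integrable_noise (Tower.bdd_mul (bdd_wt (T := T) hU hL A)
      (bdd_prod Finset.univ fun a _ => bdd_at (T := T) (hg a) A (r + 1) a))).abs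
    (integrable_noise (Tower.bdd_mul (bdd_wt (T := T) hU hL A)
      (bdd_prod Finset.univ fun a _ => bdd_at (T := T) (hh a) A (r + 1) a))) fun ω => ?_)
  simp only [abs_mul, abs_of_pos (wt_pos hU A ω), Finset.abs_prod]
  exact mul_le_mul_of_nonneg_left (Finset.prod_le_prod (fun a _ => abs_nonneg _) fun a _ => hle a _)
    (wt_pos hU A ω).le

lemma abs_av_le (hU : Bdd U L) (hL : 0 ≤ L) {Φ : LMat r n → ℝ} (hΦ : ∀ A, |Φ A| ≤ 1)
    {g h : Fin n → S → ℝ} {Bg Bh : ℝ} (hg : ∀ a, Bdd (g a) Bg) (hh : ∀ a, Bdd (h a) Bh)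
    (hle : ∀ a y, |g a y| ≤ h a y) : |T.av C U Φ g| ≤ T.av C U (fun _ => 1) h := by
  refine (Finset.abs_sum_le_sum_abs _ _).trans (Finset.sum_le_sum fun A _ => ?_)
  rw [abs_mul, abs_mul, abs_of_nonneg (C.nonneg _ A), one_mul]
  exact mul_le_mul_of_nonneg_left ((mul_le_of_le_one_left (abs_nonneg _) (hΦ A)).trans
    (tilt_mono hU hL hg hh hle)) (C.nonneg _ A)

lemma av_scale (Φ : LMat r n → ℝ) (c : Fin n → ℝ) (g : Fin n → S → ℝ) :
    T.av C U Φ (fun a y => c a * g a y) = (∏ a, c a) * T.av C U Φ g := by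
  simp only [av, tilt, Finset.prod_mul_distrib, Finset.mul_sum, ← integral_const_mul]
  refine Finset.sum_congr rfl fun A _ => ?_
  refine integral_congr_ae (Eventually.of_forall fun ω => ?_)
  simp only
  ring

lemma prod_update_one {α : Type} [Fintype α] [DecidableEq α] (b : ℝ) (a : α) :
    ∏ c, Function.update (fun _ : α => b) a b c = b ^ Fintype.card α := by
  simp

variable {V ψ : ℝ → S → ℝ} {I : Set ℝ} {K : ℝ}

/-- Along a growing potential averaged insertions move no faster than the value. -/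
theorem av_stable (hm : T.Fits C) (h : Drift V ψ I L K) (hI : Icc (0 : ℝ) 1 ⊆ I) (hL : 0 ≤ L)
    (hψ : ∀ t ∈ Icc (0 : ℝ) 1, ∀ y, ψ t y ≤ 0) {g g' : ℝ → Fin n → S → ℝ} {B' : ℝ}
    (hg : Rates g g' I B') (hK : K ≤ B') (hK1 : 1 ≤ B') (hB : 0 ≤ B)
    (hgB : ∀ t ∈ Icc (0 : ℝ) 1, ∀ a y, |g t a y| ≤ B)
    (he : ∀ t ∈ Icc (0 : ℝ) 1, ∀ a y, |g' t a y - g t a y * ψ t y| ≤ B * -ψ t y)
    (hnorm : ∀ t ∈ I, T.av C (V t) (fun _ : LMat r n => 1) (fun _ _ => 1) = 1)
    (hone : ∀ t ∈ Icc (0 : ℝ) 1, ∀ a : Fin n, T.av C (V t) (fun _ : LMat r n => 1)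
      (Function.update (fun _ _ => 1) a fun y => -ψ t y) = -T.rateAt (r + 1) V ψ t 0 T.x0)
    {Φ : LMat r n → ℝ} (hΦ : ∀ A, |Φ A| ≤ 1) :
    |T.av C (V 1) Φ (g 1) - T.av C (V 0) Φ (g 0)| ≤
      2 * n * B ^ n * (T.lev (r + 1) (V 1) 0 T.x0 - T.lev (r + 1) (V 0) 0 T.x0) := by
  rcases Nat.eq_zero_or_pos n with rfl | hn
  · have e : ∀ t ∈ I, T.av C (V t) Φ (g t) = ∑ A, C.P 0 A * Φ A := fun t ht => by
      simp [av, tilt, wt, reps]
    rw [e 1 (hI ⟨zero_le_one, le_rfl⟩), e 0 (hI ⟨le_rfl, zero_le_one⟩)]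
    simp
  have h1 : ∀ t ∈ Icc (0 : ℝ) 1, T.av C (V t) (fun _ : LMat r (n + 1) => 1)
      (Fin.snoc (fun _ _ => 1) fun y => -ψ t y) = -T.rateAt (r + 1) V ψ t 0 T.x0 := by
    intro t ht
    have htI := hI ht
    have hr1 : Rates (fun _ (_ : Fin n) (_ : S) => (1 : ℝ)) (fun _ _ _ => 0) I B' :=
      ⟨fun _ _ _ => ⟨measurable_const, fun _ => by simpa using hK1⟩,
        fun _ _ _ => ⟨measurable_const, fun _ => by simpa using (zero_le_one.trans hK1)⟩,
        fun t _ _ _ => hasDerivAt_const t 1⟩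
    have hd := (hasDerivAt_av hm h hL hr1 hK (fun _ : LMat r n => 1) htI).unique
      ((hasDerivAt_const t (1 : ℝ)).congr_of_eventuallyEq
        (Filter.eventually_of_mem (h.isOpen.mem_nhds htI) fun s hs => hnorm s hs))
    simp only [zero_sub, one_mul] at hd
    rw [Finset.sum_congr rfl fun a _ => hone t ht a] at hd
    have hneg : T.av C (V t) (fun _ : LMat r (n + 1) => 1) (Fin.snoc (fun _ _ => 1) fun y => -ψ t y) =
        -T.av C (V t) (fun _ : LMat r (n + 1) => 1) (Fin.snoc (fun _ _ => 1) (ψ t)) := by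
      simp [av, tilt, Fin.prod_univ_castSucc, integral_neg]
    rw [hneg]
    simp only [Finset.sum_const, Finset.card_univ, Fintype.card_fin, nsmul_eq_mul] at hd
    have hn' : (0 : ℝ) < n := by exact_mod_cast hn
    nlinarith [hd]
  set f : ℝ → ℝ := fun t => T.av C (V t) Φ (g t) - T.av C (V 0) Φ (g 0)
  set Λ : ℝ → ℝ := fun t => 2 * n * B ^ n * (T.lev (r + 1) (V t) 0 T.x0 - T.lev (r + 1) (V 0) 0 T.x0)
  have hf : ∀ t ∈ Icc (0 : ℝ) 1, HasDerivAt f ((n : ℝ) * T.av C (V t)
      (fun A' => Φ (P157.Low.sub A' Fin.castSucc)) (Fin.snoc (g t) (ψ t)) +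
      ∑ a, T.av C (V t) Φ (Function.update (g t) a fun y => g' t a y - g t a y * ψ t y)) t :=
    fun t ht => (hasDerivAt_av hm h hL hg hK Φ (hI ht)).sub_const _
  have hΛ : ∀ t ∈ Icc (0 : ℝ) 1, HasDerivAt Λ (2 * n * B ^ n * -T.rateAt (r + 1) V ψ t 0 T.x0) t :=
    fun t ht => ((hasDerivAt_lev h 0 (hI ht) T.x0).sub_const _).const_mul _
  refine image_norm_le_of_norm_deriv_right_le_deriv_boundary' (f := f) (B := Λ) (a := 0) (b := 1)
    (fun t ht => (hf t ht).continuousAt.continuousWithinAt)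
    (fun t ht => (hf t (Ico_subset_Icc_self ht)).hasDerivWithinAt) (by simp [f, Λ])
    (fun t ht => (hΛ t ht).continuousAt.continuousWithinAt)
    (fun t ht => (hΛ t (Ico_subset_Icc_self ht)).hasDerivWithinAt) (fun t ht => ?_)
    ⟨zero_le_one, le_rfl⟩
  have ht' := Ico_subset_Icc_self ht
  have htI := hI ht'
  have hU := h.pot t htI
  have hψb : Bdd (fun y => -ψ t y) B' :=
    ⟨(h.rate t htI).meas.neg, fun y => by rw [abs_neg]; exact ((h.rate t htI).le y).trans hK⟩
  have h1b : Bdd (fun _ : S => (1 : ℝ)) B' := ⟨measurable_const, fun _ => by simpa using hK1⟩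
  have hsc : ∀ {u : S → ℝ} {b : ℝ}, Bdd u b → Bdd (fun y => B * u y) (B * b) := fun hu =>
    ⟨hu.meas.const_mul _, fun y => by
      rw [abs_mul, abs_of_nonneg hB]; exact mul_le_mul_of_nonneg_left (hu.le y) hB⟩
  have b1 : |T.av C (V t) (fun A' => Φ (P157.Low.sub A' Fin.castSucc)) (Fin.snoc (g t) (ψ t))| ≤
      B ^ n * -T.rateAt (r + 1) V ψ t 0 T.x0 := by
    set c : Fin (n + 1) → ℝ := Fin.snoc (fun _ => B) 1
    set u : Fin (n + 1) → S → ℝ := Fin.snoc (fun _ _ => 1) fun y => -ψ t y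
    have hu : ∀ a, Bdd (u a) B' := fun a => a.lastCases (by simp only [u, Fin.snoc_last]; exact hψb)
      fun b => by simp only [u, Fin.snoc_castSucc]; exact h1b
    refine (abs_av_le hU hL (fun A => hΦ _) (Bg := B') (Bh := max B 1 * B') (fun a => a.lastCases
      (by rw [Fin.snoc_last]; exact ⟨(h.rate t htI).meas, fun y => ((h.rate t htI).le y).trans hK⟩)
      fun b => by rw [Fin.snoc_castSucc]; exact hg.val t htI b)
      (h := fun a y => c a * u a y) (fun a => ⟨(hu a).meas.const_mul _, fun y => ?_⟩) ?_).trans_eq ?_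
    · rw [abs_mul]
      refine mul_le_mul ?_ ((hu a).le y) (abs_nonneg _) (le_max_of_le_right zero_le_one)
      refine a.lastCases ?_ fun b => ?_
      · simp [c]
      · simp [c, abs_of_nonneg hB]
    · intro a y
      refine a.lastCases ?_ fun b => ?_
      · simp [c, u, abs_of_nonpos (hψ t ht' y)]
      · simpa [c, u] using hgB t ht' b y
    · rw [av_scale, h1 t ht']
      simp [c, Fin.prod_univ_castSucc]
  have b2 : ∀ a, |T.av C (V t) Φ (Function.update (g t) a fun y => g' t a y - g t a y * ψ t y)| ≤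
      B ^ n * -T.rateAt (r + 1) V ψ t 0 T.x0 := by
    intro a
    set u : Fin n → S → ℝ := Function.update (fun _ _ => 1) a fun y => -ψ t y
    have hu : ∀ c, Bdd (u c) B' := fun c => by
      rcases eq_or_ne c a with rfl | hc
      · simpa [u] using hψb
      · simpa [u, hc] using h1b
    refine (abs_av_le hU hL hΦ (Bg := B' + B' * B') (Bh := B * B') (fun c => ?_)
      (h := fun c y => B * u c y) (fun c => hsc (hu c)) fun c y => ?_).trans_eq ?_
    · rcases eq_or_ne c a with rfl | hc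
      · rw [Function.update_self]
        exact ⟨(hg.der t htI c).meas.sub ((hg.val t htI c).meas.mul (h.rate t htI).meas), fun y =>
          (abs_sub _ _).trans (add_le_add ((hg.der t htI c).le y) (by
            rw [abs_mul]
            exact mul_le_mul ((hg.val t htI c).le y) (((h.rate t htI).le y).trans hK) (abs_nonneg _)
              (zero_le_one.trans hK1)))⟩
      · rw [Function.update_of_ne hc]
        exact ⟨(hg.val t htI c).meas, fun y => ((hg.val t htI c).le y).trans (by nlinarith)⟩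
    · rcases eq_or_ne c a with rfl | hc
      · simpa [u] using he t ht' c y
      · simpa [u, hc] using hgB t ht' c y
    · rw [av_scale _ (fun _ => B), hone t ht' a]
      simp
  rw [Real.norm_eq_abs]
  refine (abs_add_le _ _).trans ?_
  rw [abs_mul, Nat.abs_cast]
  refine (add_le_add (mul_le_mul_of_nonneg_left b1 (Nat.cast_nonneg n))
    ((Finset.abs_sum_le_sum_abs _ _).trans (Finset.sum_le_sum fun a _ => b2 a))).trans_eq ?_
  simp only [Finset.sum_const, Finset.card_univ, Fintype.card_fin, nsmul_eq_mul]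
  ring

/-- The normalisation and single insertions among one replica. -/
lemma av_single (hU : Bdd U L) (hL : 0 ≤ L) {η : S → ℝ} (hη : Bdd η B) :
    T.av C U (fun _ : LMat r 1 => 1) (fun _ => η) = T.up (r + 1) U η (r + 1) (r + 1) T.x0 := by
  rw [av, Finset.sum_congr rfl (g := fun A => C.P 1 A * T.up (r + 1) U η (r + 1) (r + 1) T.x0)
    fun A _ => ?_, ← Finset.sum_mul, C.total, one_mul]
  rcases eq_or_ne (C.P 1 A) 0 with h | h
  · simp [h]
  · rw [one_mul, tilt_one (C.good h) hU hL hη]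

/-- The normalisation and single insertions among two replicas. -/
lemma av_single_two (hU : Bdd U L) (hL : 0 ≤ L) {η : S → ℝ} (hη : Bdd η B) (hB : 1 ≤ B) (a : Fin 2) :
    T.av C U (fun _ : LMat r 2 => 1) (Function.update (fun _ _ => 1) a η) =
      T.up (r + 1) U η (r + 1) (r + 1) T.x0 := by
  rw [av, Finset.sum_congr rfl (g := fun A => C.P 2 A * T.up (r + 1) U η (r + 1) (r + 1) T.x0)
    fun A _ => ?_, ← Finset.sum_mul, C.total, one_mul]
  rcases eq_or_ne (C.P 2 A) 0 with h | h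
  · simp [h]
  have hJ := (A 0 1).isLt
  rw [one_mul, tilt_two (C.good h) hU hL (B := B) fun c => ?_]
  · congr 1
    have hc := up_comp (T := T) (U := U) η (r + 1) (r + 1) (r - (A 0 1 : ℕ)) ((A 0 1 : ℕ) + 1)
    rw [show r - (A 0 1 : ℕ) + ((A 0 1 : ℕ) + 1) = r + 1 by omega,
      show r + 1 - (r - (A 0 1 : ℕ)) = (A 0 1 : ℕ) + 1 by omega] at hc
    rw [← hc]
    fin_cases a <;> simp [up_one hU]
  · rcases eq_or_ne c a with rfl | hc
    · simpa using hη
    · rw [Function.update_of_ne hc]; exact ⟨measurable_const, fun _ => by simpa using hB⟩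

end Tower

end Vale.Agent.P166F.Low.Cascade
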