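import Mathlib

/-!
P166: nested log-moments over an arbitrary field space, and their derivatives in a parameter.
-/

namespace Vale.Agent.P166F.Low.Cascade

open MeasureTheory Set Filter

/-- Independent noises attached to levels, with an exponent on each level. -/
structure Tower (S Ω : Type) [MeasurableSpace S] [MeasurableSpace Ω] where
  step : ℕ → S → Ω → S
  μ : Measure Ω
  prob : IsProbabilityMeasure μ
  meas : ∀ j, Measurable fun p : S × Ω => step j p.1 p.2
  m : ℕ → ℝ
  mNonneg : ∀ j, 0 ≤ m j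
  mLeOne : ∀ j, m j ≤ 1
  x0 : S

/-- A measurable function with the bound `B`. -/
structure Bdd {S : Type} [MeasurableSpace S] (f : S → ℝ) (B : ℝ) : Prop where
  meas : Measurable f
  le : ∀ y, |f y| ≤ B

variable {S Ω : Type} [MeasurableSpace S] [MeasurableSpace Ω]

attribute [instance] Tower.prob

/-- The log-moment of order `m`, the mean for `m = 0`. -/
noncomputable def lavg (m : ℝ) (μ : Measure Ω) (f : Ω → ℝ) : ℝ :=
  if m = 0 then ∫ ξ, f ξ ∂μ else Real.log (∫ ξ, Real.exp (m * f ξ) ∂μ) / m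

namespace Tower

variable (T : Tower S Ω) (R : ℕ) (U : S → ℝ)

/-- The potential after averaging `k` of the `R` levels. -/
noncomputable def val : ℕ → S → ℝ
  | 0 => U
  | k + 1 => fun y => lavg (T.m (R - (k + 1))) T.μ fun ξ => val k (T.step (R - (k + 1)) y ξ)

/-- The potential on entering level `j`. -/
noncomputable def lev (j : ℕ) : S → ℝ := T.val R U (R - j)

/-- The normalisation of level `j`. -/
noncomputable def norm (j : ℕ) (y : S) : ℝ :=
  ∫ ξ, Real.exp (T.m j * T.lev R U (j + 1) (T.step j y ξ)) ∂T.μ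

/-- The weight of one edge of level `j`. -/
noncomputable def edge (j : ℕ) (y y' : S) : ℝ :=
  Real.exp (T.m j * T.lev R U (j + 1) y') / T.norm R U j y

/-- The tilted average over level `j`. -/
noncomputable def tstep (j : ℕ) (η : S → ℝ) (y : S) : ℝ :=
  ∫ ξ, T.edge R U j y (T.step j y ξ) * η (T.step j y ξ) ∂T.μ

/-- The tilted averages over the `k` levels below `L`. -/
noncomputable def up (η : S → ℝ) (L : ℕ) : ℕ → S → ℝ
  | 0 => η
  | k + 1 => T.tstep R U (L - (k + 1)) (up η L k)

variable {T R U}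

lemma lev_top : T.lev R U R = U := by simp [lev, val]

lemma lev_succ {j : ℕ} (h : j < R) (y : S) :
    T.lev R U j y = lavg (T.m j) T.μ fun ξ => T.lev R U (j + 1) (T.step j y ξ) := by
  obtain ⟨k, hk⟩ : ∃ k, R - j = k + 1 := ⟨R - j - 1, by omega⟩
  have hj : R - (k + 1) = j := by omega
  have hj' : R - (j + 1) = k := by omega
  simp only [lev, hk, val, hj, hj']

lemma up_succ (η : S → ℝ) {L j : ℕ} (h : j < L) :
    T.up R U η L (L - j) = T.tstep R U j (T.up R U η L (L - (j + 1))) := by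
  obtain ⟨k, hk⟩ : ∃ k, L - j = k + 1 := ⟨L - j - 1, by omega⟩
  have hj : L - (k + 1) = j := by omega
  have hj' : L - (j + 1) = k := by omega
  simp only [hk, up, hj, hj']

lemma measurable_step (j : ℕ) (y : S) : Measurable fun ξ => T.step j y ξ :=
  (T.meas j).comp measurable_prodMk_left

lemma integrable_comp {f : S → ℝ} {B : ℝ} (hf : Bdd f B) (j : ℕ) (y : S) :
    Integrable (fun ξ => f (T.step j y ξ)) T.μ :=
  Integrable.mono' (integrable_const B) (hf.meas.comp (measurable_step j y)).aestronglyMeasurable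
    (Eventually.of_forall fun ξ => hf.le _)

lemma measurable_avg {f : S → ℝ} (hf : Measurable f) (j : ℕ) :
    Measurable fun y => ∫ ξ, f (T.step j y ξ) ∂T.μ :=
  ((hf.comp (T.meas j)).stronglyMeasurable.integral_prod_right').measurable

lemma abs_avg_le {f : S → ℝ} {B : ℝ} (hf : Bdd f B) (j : ℕ) (y : S) :
    |∫ ξ, f (T.step j y ξ) ∂T.μ| ≤ B := by
  simpa using norm_integral_le_of_norm_le_const (μ := T.μ) (f := fun ξ => f (T.step j y ξ)) (C := B)
    (Eventually.of_forall fun ξ => by simpa using hf.le _)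

lemma exp_mem {m L x : ℝ} (hm0 : 0 ≤ m) (hx : |x| ≤ L) :
    Real.exp (-(m * L)) ≤ Real.exp (m * x) ∧ Real.exp (m * x) ≤ Real.exp (m * L) := by
  obtain ⟨h1, h2⟩ := abs_le.1 hx
  constructor <;> refine Real.exp_le_exp.2 ?_ <;> nlinarith

lemma bdd_exp {f : S → ℝ} {L m : ℝ} (hf : Bdd f L) (hm : 0 ≤ m) :
    Bdd (fun y => Real.exp (m * f y)) (Real.exp (m * L)) :=
  ⟨(hf.meas.const_mul m).exp, fun y => by
    rw [abs_of_pos (Real.exp_pos _)]; exact (exp_mem hm (hf.le y)).2⟩

lemma integral_exp_mem {f : S → ℝ} {L : ℝ} (hf : Bdd f L) (j : ℕ) (y : S) :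
    Real.exp (-(T.m j * L)) ≤ ∫ ξ, Real.exp (T.m j * f (T.step j y ξ)) ∂T.μ ∧
      ∫ ξ, Real.exp (T.m j * f (T.step j y ξ)) ∂T.μ ≤ Real.exp (T.m j * L) := by
  have hi := integrable_comp (T := T) (bdd_exp hf (T.mNonneg j)) j y
  constructor
  · simpa using integral_mono (integrable_const _) hi fun ξ => (exp_mem (T.mNonneg j) (hf.le _)).1
  · simpa using integral_mono hi (integrable_const _) fun ξ => (exp_mem (T.mNonneg j) (hf.le _)).2

lemma bdd_lavg {f : S → ℝ} {L : ℝ} (hf : Bdd f L) (j : ℕ) :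
    Bdd (fun y => lavg (T.m j) T.μ fun ξ => f (T.step j y ξ)) L := by
  by_cases hm : T.m j = 0
  · simp only [lavg, if_pos hm]
    exact ⟨measurable_avg hf.meas j, abs_avg_le hf j⟩
  · simp only [lavg, if_neg hm]
    refine ⟨(measurable_avg (T := T) (f := fun y => Real.exp (T.m j * f y)) (hf.meas.const_mul _).exp j).log.div_const _, fun y => ?_⟩
    obtain ⟨h1, h2⟩ := integral_exp_mem (T := T) hf j y
    have h0 := (Real.exp_pos _).trans_le h1
    have hp := (T.mNonneg j).lt_of_ne (Ne.symm hm)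
    have e1 := Real.log_le_log (Real.exp_pos _) h1
    have e2 := Real.log_le_log h0 h2
    rw [Real.log_exp] at e1 e2
    rw [abs_le, le_div_iff₀ hp, div_le_iff₀ hp]
    constructor <;> nlinarith

variable {L : ℝ}

lemma bdd_val (hU : Bdd U L) : ∀ k, Bdd (T.val R U k) L
  | 0 => hU
  | k + 1 => bdd_lavg (bdd_val hU k) _

lemma bdd_lev (hU : Bdd U L) (j : ℕ) : Bdd (T.lev R U j) L := bdd_val hU _

lemma norm_mem (hU : Bdd U L) (j : ℕ) (y : S) :
    Real.exp (-(T.m j * L)) ≤ T.norm R U j y ∧ T.norm R U j y ≤ Real.exp (T.m j * L) :=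
  integral_exp_mem (bdd_lev hU _) j y

lemma norm_pos (hU : Bdd U L) (j : ℕ) (y : S) : 0 < T.norm R U j y :=
  (Real.exp_pos _).trans_le (norm_mem hU j y).1

lemma measurable_norm (hU : Bdd U L) (j : ℕ) : Measurable (T.norm R U j) :=
  measurable_avg ((bdd_lev hU _).meas.const_mul _).exp j

lemma measurable_edge (hU : Bdd U L) (j : ℕ) :
    Measurable fun p : S × S => T.edge R U j p.1 p.2 :=
  (((bdd_lev hU _).meas.comp measurable_snd).const_mul _).exp.div
    ((measurable_norm hU j).comp measurable_fst)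

lemma edge_pos (hU : Bdd U L) (j : ℕ) (y y' : S) : 0 < T.edge R U j y y' :=
  div_pos (Real.exp_pos _) (norm_pos hU j y)

lemma edge_le (hU : Bdd U L) (hL : 0 ≤ L) (j : ℕ) (y y' : S) :
    T.edge R U j y y' ≤ Real.exp (2 * L) := by
  have h := T.mLeOne j
  rw [edge, div_le_iff₀ (norm_pos hU j y)]
  calc Real.exp (T.m j * T.lev R U (j + 1) y') ≤ Real.exp (T.m j * L) :=
        (exp_mem (T.mNonneg j) ((bdd_lev hU _).le _)).2
    _ ≤ Real.exp (2 * L) * Real.exp (-(T.m j * L)) := by
        rw [← Real.exp_add]; exact Real.exp_le_exp.2 (by nlinarith [T.mNonneg j])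
    _ ≤ _ := mul_le_mul_of_nonneg_left (norm_mem hU j y).1 (Real.exp_pos _).le

lemma integral_edge (hU : Bdd U L) (j : ℕ) (y : S) :
    ∫ ξ, T.edge R U j y (T.step j y ξ) ∂T.μ = 1 := by
  simp only [edge]
  rw [integral_div]
  exact div_self (norm_pos hU j y).ne'

lemma bdd_tstep (hU : Bdd U L) {η : S → ℝ} {B : ℝ} (hη : Bdd η B) (j : ℕ) :
    Bdd (T.tstep R U j η) B := by
  refine ⟨?_, fun y => ?_⟩
  · exact StronglyMeasurable.measurable (StronglyMeasurable.integral_prod_right' (ν := T.μ)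
      (f := fun p : S × Ω => T.edge R U j p.1 (T.step j p.1 p.2) * η (T.step j p.1 p.2))
      (((measurable_edge hU j).comp (measurable_fst.prodMk (T.meas j))).mul
        (hη.meas.comp (T.meas j))).stronglyMeasurable)
  · have hi : Integrable (fun ξ => T.edge R U j y (T.step j y ξ)) T.μ :=
      (integrable_comp (bdd_exp (bdd_lev hU _) (T.mNonneg j)) j y).div_const _
    rw [tstep, ← Real.norm_eq_abs]
    refine (norm_integral_le_of_norm_le (μ := T.μ) (g := fun ξ => T.edge R U j y (T.step j y ξ) * B)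
      (hi.mul_const B) (Eventually.of_forall fun ξ => ?_)).trans ?_
    · rw [Real.norm_eq_abs, abs_mul, abs_of_pos (edge_pos hU j _ _)]
      exact mul_le_mul_of_nonneg_left (hη.le _) (edge_pos hU j _ _).le
    · rw [integral_mul_const, integral_edge hU, one_mul]

lemma bdd_up (hU : Bdd U L) {η : S → ℝ} {B : ℝ} (hη : Bdd η B) (l : ℕ) :
    ∀ k, Bdd (T.up R U η l k) B
  | 0 => hη
  | k + 1 => bdd_tstep hU (bdd_up hU hη l k) _

lemma tstep_one (hU : Bdd U L) (j : ℕ) : T.tstep R U j (fun _ => 1) = fun _ => 1 := by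
  funext y
  simp [tstep, integral_edge hU]

lemma up_one (hU : Bdd U L) (l : ℕ) : ∀ k, T.up R U (fun _ => 1) l k = fun _ => 1
  | 0 => rfl
  | k + 1 => by rw [up, up_one hU l k, tstep_one hU]

/-! ### Derivatives in a parameter -/

variable {V ψ : ℝ → S → ℝ} {I : Set ℝ} {K : ℝ}

/-- The potential has the derivative `-ψ` in the parameter. -/
structure Drift (V ψ : ℝ → S → ℝ) (I : Set ℝ) (L K : ℝ) : Prop where
  isOpen : IsOpen I
  pot : ∀ t ∈ I, Bdd (V t) L
  rate : ∀ t ∈ I, Bdd (ψ t) K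
  deriv : ∀ t ∈ I, ∀ y, HasDerivAt (fun s => V s y) (-ψ t y) t

/-- The rate on entering level `j`. -/
noncomputable def rateAt (T : Tower S Ω) (R : ℕ) (V ψ : ℝ → S → ℝ) (t : ℝ) (j : ℕ) : S → ℝ :=
  T.up R (V t) (ψ t) R (R - j)

lemma bdd_rateAt (h : Drift V ψ I L K) {t : ℝ} (ht : t ∈ I) (j : ℕ) :
    Bdd (T.rateAt R V ψ t j) K :=
  bdd_up (h.pot t ht) (h.rate t ht) _ _

lemma hasDerivAt_exp_avg (h : Drift V ψ I L K) (j : ℕ) (y : S)
    (hd : ∀ t ∈ I, ∀ x, HasDerivAt (fun s => T.lev R (V s) (j + 1) x)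
      (-T.rateAt R V ψ t (j + 1) x) t) {t : ℝ} (ht : t ∈ I) :
    HasDerivAt (fun s => T.norm R (V s) j y)
      (∫ ξ, Real.exp (T.m j * T.lev R (V t) (j + 1) (T.step j y ξ)) *
        (T.m j * -T.rateAt R V ψ t (j + 1) (T.step j y ξ)) ∂T.μ) t := by
  refine (hasDerivAt_integral_of_dominated_loc_of_deriv_le (μ := T.μ)
    (F := fun s ξ => Real.exp (T.m j * T.lev R (V s) (j + 1) (T.step j y ξ)))
    (F' := fun s ξ => Real.exp (T.m j * T.lev R (V s) (j + 1) (T.step j y ξ)) *
        (T.m j * -T.rateAt R V ψ s (j + 1) (T.step j y ξ)))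
    (bound := fun _ => Real.exp (T.m j * L) * (T.m j * K)) (x₀ := t) (s := I)
    (h.isOpen.mem_nhds ht) ?_ ?_ ?_ ?_ (integrable_const _) ?_).2
  · filter_upwards [h.isOpen.mem_nhds ht] with s hs
    exact ((bdd_exp (bdd_lev (h.pot s hs) _) (T.mNonneg j)).meas.comp
      (measurable_step j y)).aestronglyMeasurable
  · exact integrable_comp (bdd_exp (bdd_lev (h.pot t ht) _) (T.mNonneg j)) j y
  · exact (((bdd_exp (bdd_lev (h.pot t ht) _) (T.mNonneg j)).meas.mul
      ((bdd_rateAt h ht _).meas.neg.const_mul _)).comp (measurable_step j y)).aestronglyMeasurable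
  · refine Eventually.of_forall fun ξ s hs => ?_
    rw [Real.norm_eq_abs, abs_mul, abs_mul, abs_neg, abs_of_pos (Real.exp_pos _),
      abs_of_nonneg (T.mNonneg j)]
    exact mul_le_mul (exp_mem (T.mNonneg j) ((bdd_lev (h.pot s hs) _).le _)).2
      (mul_le_mul_of_nonneg_left ((bdd_rateAt h hs _).le _) (T.mNonneg j))
      (mul_nonneg (T.mNonneg j) (abs_nonneg _)) (Real.exp_pos _).le
  · exact Eventually.of_forall fun ξ s hs => ((hd s hs _).const_mul (T.m j)).exp

lemma rateAt_succ (t : ℝ) {j : ℕ} (h : j < R) :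
    T.rateAt R V ψ t j = T.tstep R (V t) j (T.rateAt R V ψ t (j + 1)) :=
  up_succ _ h

lemma hasDerivAt_norm' (h : Drift V ψ I L K) {j : ℕ} (hj : j < R) (y : S)
    (hd : ∀ t ∈ I, ∀ x, HasDerivAt (fun s => T.lev R (V s) (j + 1) x)
      (-T.rateAt R V ψ t (j + 1) x) t) {t : ℝ} (ht : t ∈ I) :
    HasDerivAt (fun s => T.norm R (V s) j y)
      (T.norm R (V t) j y * (T.m j * -T.rateAt R V ψ t j y)) t := by
  refine (hasDerivAt_exp_avg h j y hd ht).congr_deriv ?_
  rw [rateAt_succ t hj, tstep, ← integral_neg, ← mul_assoc, ← integral_const_mul]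
  refine integral_congr_ae (Eventually.of_forall fun ξ => ?_)
  have := (norm_pos (R := R) (T := T) (h.pot t ht) j y).ne'
  simp only [edge]
  field_simp

/-- The potentials differentiate to the tilted rates. -/
theorem hasDerivAt_lev (h : Drift V ψ I L K) (j : ℕ) {t : ℝ} (ht : t ∈ I) (x : S) :
    HasDerivAt (fun s => T.lev R (V s) j x) (-T.rateAt R V ψ t j x) t := by
  induction hk : R - j generalizing j t x with
  | zero =>
    simp only [lev, rateAt, hk, val, up]
    exact h.deriv t ht x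
  | succ k ih =>
    have hj : j < R := by omega
    have hd : ∀ t ∈ I, ∀ y, HasDerivAt (fun s => T.lev R (V s) (j + 1) y)
        (-T.rateAt R V ψ t (j + 1) y) t := fun t ht y => ih (j + 1) ht y (by omega)
    simp only [lev_succ hj, lavg]
    by_cases hm : T.m j = 0
    · simp only [if_pos hm]
      refine (hasDerivAt_integral_of_dominated_loc_of_deriv_le (μ := T.μ)
        (F := fun s ξ => T.lev R (V s) (j + 1) (T.step j x ξ))
        (F' := fun s ξ => -T.rateAt R V ψ s (j + 1) (T.step j x ξ))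
        (bound := fun _ => K) (x₀ := t) (s := I) (h.isOpen.mem_nhds ht) ?_ ?_ ?_ ?_
        (integrable_const _) (Eventually.of_forall fun ξ s hs => hd s hs _)).2.congr_deriv ?_
      · filter_upwards [h.isOpen.mem_nhds ht] with s hs
        exact ((bdd_lev (h.pot s hs) _).meas.comp (measurable_step j x)).aestronglyMeasurable
      · exact integrable_comp (bdd_lev (h.pot t ht) _) j x
      · exact ((bdd_rateAt h ht _).meas.neg.comp (measurable_step j x)).aestronglyMeasurable
      · exact Eventually.of_forall fun ξ s hs => by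
          rw [Real.norm_eq_abs, abs_neg]; exact (bdd_rateAt h hs _).le _
      · rw [integral_neg, rateAt_succ t hj, tstep]
        simp [edge, norm, hm]
    · simp only [if_neg hm]
      have := ((hasDerivAt_norm' h hj x hd ht).log (norm_pos (h.pot t ht) j x).ne').div_const (T.m j)
      refine this.congr_deriv ?_
      have := (norm_pos (R := R) (T := T) (h.pot t ht) j x).ne'
      field_simp

lemma hasDerivAt_norm (h : Drift V ψ I L K) {j : ℕ} (hj : j < R) (y : S) {t : ℝ} (ht : t ∈ I) :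
    HasDerivAt (fun s => T.norm R (V s) j y)
      (T.norm R (V t) j y * (T.m j * -T.rateAt R V ψ t j y)) t :=
  hasDerivAt_norm' h hj y (fun _ ht x => hasDerivAt_lev h _ ht x) ht

/-- The logarithmic derivative of an edge. -/
theorem hasDerivAt_edge (h : Drift V ψ I L K) {j : ℕ} (hj : j < R) (y y' : S) {t : ℝ} (ht : t ∈ I) :
    HasDerivAt (fun s => T.edge R (V s) j y y')
      (T.edge R (V t) j y y' *
        (T.m j * (T.rateAt R V ψ t j y - T.rateAt R V ψ t (j + 1) y'))) t := by
  refine ((((hasDerivAt_lev h (j + 1) ht y').const_mul (T.m j)).exp).fun_div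
    (hasDerivAt_norm h hj y ht) (norm_pos (h.pot t ht) j y).ne').congr_deriv ?_
  have := (norm_pos (R := R) (T := T) (h.pot t ht) j y).ne'
  simp only [edge]
  field_simp
  ring

end Tower

end Vale.Agent.P166F.Low.Cascade
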