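import Vale.Agent.P157.Low.CascadeClass
import Vale.Agent.P166F.Low.Cascade.Tower

/-!
P166: tilted averages over the field trees of ultrametric arrays, and the removal of one replica.
-/

namespace Vale.Agent.P166F.Low.Cascade

open MeasureTheory Set Filter Vale.Agent.P157.Low

variable {r N : ℕ} {S Ω : Type} [MeasurableSpace S] [MeasurableSpace Ω]

/-- A level index inside `0, …, r`. -/
def lvl (r j : ℕ) : Fin (r + 1) := ⟨min j r, by omega⟩

lemma lvl_val {j : ℕ} (h : j ≤ r) : (lvl r j : ℕ) = j := min_eq_left h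

lemma lvl_mono {i j : ℕ} (h : i ≤ j) : lvl r i ≤ lvl r j := min_le_min_right r h

lemma lvl_ne {i j : ℕ} (hi : i < j) (hj : j ≤ r) : lvl r i ≠ lvl r j := by
  intro h
  have := congrArg Fin.val h
  rw [lvl_val (by omega), lvl_val hj] at this
  omega

/-- The replicas representing the balls of level `j`. -/
def reps (A : LMat r N) (j : ℕ) : Finset (Fin N) :=
  Finset.univ.filter fun b => rep (lvl r j) A b = b

section arrays

variable {A : LMat r N}

lemma good_sub (hA : Good A) {k : ℕ} (e : Fin k → Fin N) : Good (sub A e) :=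
  ⟨fun _ _ => hA.symm _ _, fun _ => hA.diag _, fun _ _ _ => hA.ultra _ _ _⟩

lemma rep_le (hA : Good A) (j : Fin (r + 1)) {a c : Fin N} (h : j ≤ A a c) : rep j A a ≤ c := by
  have hne : (cls j A a).Nonempty := ⟨a, by simp [cls, hA.diag, Fin.le_last]⟩
  rw [rep, dif_pos hne]
  exact Finset.min'_le _ _ (Finset.mem_filter.2 ⟨Finset.mem_univ c, h⟩)

lemma rep_rep (hA : Good A) (j : Fin (r + 1)) (a : Fin N) : rep j A (rep j A a) = rep j A a :=
  (hA.rep_eq_iff j _ _).2 (by rw [hA.symm]; exact hA.meet_rep j a)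

lemma rep_unique (hA : Good A) (j : Fin (r + 1)) {a b : Fin N} (h : j ≤ A a b)
    (hmin : ∀ c, j ≤ A a c → b ≤ c) : rep j A a = b :=
  le_antisymm (rep_le hA j h) (hmin _ (hA.meet_rep j a))

lemma rep_mem_reps (hA : Good A) (j : ℕ) (a : Fin N) : rep (lvl r j) A a ∈ reps A j :=
  Finset.mem_filter.2 ⟨Finset.mem_univ _, rep_rep hA _ a⟩

variable {A' : LMat r (N + 1)}

lemma rep_castSucc (hA : Good A') (j : Fin (r + 1)) (a : Fin N) :
    rep j A' a.castSucc = (rep j (P157.Low.sub A' Fin.castSucc) a).castSucc := by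
  refine rep_unique hA j ((good_sub hA _).meet_rep j a) fun c hc => ?_
  refine c.lastCases (fun _ => (Fin.castSucc_lt_last _).le) (fun b hb => ?_) hc
  exact Fin.castSucc_le_castSucc_iff.2 (rep_le (good_sub hA _) j hb)

/-- The new replica joins the balls of the levels below `top`. -/
def top (A' : LMat r (N + 1)) : ℕ :=
  Finset.univ.sup fun a : Fin N => (A' (Fin.last N) a.castSucc : ℕ) + 1

lemma top_le (A' : LMat r (N + 1)) : top A' ≤ r + 1 :=
  Finset.sup_le fun _ _ => Fin.is_lt _

lemma top_le_iff {j : ℕ} (hj : j ≤ r) :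
    top A' ≤ j ↔ ∀ a : Fin N, ¬ lvl r j ≤ A' (Fin.last N) a.castSucc := by
  simp only [top, Finset.sup_le_iff, Finset.mem_univ, true_implies, Fin.le_def, lvl_val hj, not_le]
  exact forall_congr' fun a => Nat.succ_le_iff

lemma exists_anchor (h : 0 < top A') :
    ∃ a : Fin N, ∀ j, j < top A' → lvl r j ≤ A' (Fin.last N) a.castSucc := by
  have hne : (Finset.univ : Finset (Fin N)).Nonempty := by
    rcases Nat.eq_zero_or_pos N with rfl | hN
    · simp [top] at h
    · exact ⟨⟨0, hN⟩, Finset.mem_univ _⟩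
  obtain ⟨a, -, ha⟩ := Finset.exists_mem_eq_sup _ hne
    fun a : Fin N => (A' (Fin.last N) a.castSucc : ℕ) + 1
  refine ⟨a, fun j hj => ?_⟩
  have hj' : j ≤ r := by have := top_le A'; omega
  rw [Fin.le_def, lvl_val hj']
  unfold top at hj
  omega

lemma rep_last (hA : Good A') {j : ℕ} (hj : j ≤ r) (h : top A' ≤ j) :
    rep (lvl r j) A' (Fin.last N) = Fin.last N := by
  refine rep_unique hA _ (by rw [hA.diag]; exact Fin.le_last _) fun c hc => ?_
  exact c.lastCases (fun _ => le_rfl) (fun a ha => absurd ha ((top_le_iff hj).1 h a)) hc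

lemma rep_last_iff (hA : Good A') {j : ℕ} (hj : j ≤ r) :
    rep (lvl r j) A' (Fin.last N) = Fin.last N ↔ top A' ≤ j := by
  refine ⟨fun h => (top_le_iff hj).2 fun a ha => ?_, rep_last hA hj⟩
  exact absurd ((rep_le hA _ ha).trans_lt (Fin.castSucc_lt_last a)) (by simp [h])

end arrays

/-! ### Independent noises -/

/-- The independent noises of `N` replicas. -/
noncomputable def Tower.noise (T : Tower S Ω) (r N : ℕ) : Measure (Fin (r + 1) × Fin N → Ω) :=
  Measure.pi fun _ => T.μ

instance (T : Tower S Ω) (r N : ℕ) : IsProbabilityMeasure (T.noise r N) :=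
  inferInstanceAs (IsProbabilityMeasure (Measure.pi _))

lemma measurePreserving_update {ι : Type} [Fintype ι] [DecidableEq ι] (μ : Measure Ω)
    [IsProbabilityMeasure μ] (c : ι) :
    MeasurePreserving (fun p : (ι → Ω) × Ω => Function.update p.1 c p.2)
      ((Measure.pi fun _ => μ).prod μ) (Measure.pi fun _ => μ) := by
  have hm : Measurable fun p : (ι → Ω) × Ω => Function.update p.1 c p.2 := measurable_update'
  refine ⟨hm, (Measure.pi_eq fun s hs => ?_).symm⟩
  rw [Measure.map_apply hm (MeasurableSet.univ_pi hs)]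
  have : (fun p : (ι → Ω) × Ω => Function.update p.1 c p.2) ⁻¹' Set.pi univ s =
      (Set.pi univ (Function.update s c univ)) ×ˢ s c := by
    ext ⟨ω, ξ⟩
    simp only [mem_preimage, mem_univ_pi, mem_prod]
    refine ⟨fun h => ⟨fun i => ?_, by simpa using h c⟩, fun h i => ?_⟩
    · rcases eq_or_ne i c with rfl | hi
      · simp
      · simpa [hi] using h i
    · rcases eq_or_ne i c with rfl | hi
      · simpa using h.2
      · simpa [hi] using h.1 i
  rw [this, Measure.prod_prod, Measure.pi_pi, ← Finset.mul_prod_erase _ _ (Finset.mem_univ c),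
    ← Finset.mul_prod_erase _ (fun i => μ (s i)) (Finset.mem_univ c), Function.update_self,
    measure_univ, one_mul, mul_comm]
  congr 1
  exact Finset.prod_congr rfl fun i hi => by rw [Function.update_of_ne (Finset.ne_of_mem_erase hi)]

lemma measurePreserving_comp {ι κ : Type} [Fintype ι] [Fintype κ] (μ : Measure Ω)
    [IsProbabilityMeasure μ] {e : κ → ι} (he : Function.Injective e) :
    MeasurePreserving (fun ω : ι → Ω => ω ∘ e) (Measure.pi fun _ => μ) (Measure.pi fun _ => μ) := by
  have hm : Measurable fun ω : ι → Ω => ω ∘ e := measurable_pi_lambda _ fun _ => measurable_pi_apply _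
  refine ⟨hm, (Measure.pi_eq fun s hs => ?_).symm⟩
  rw [Measure.map_apply hm (MeasurableSet.univ_pi hs)]
  have : (fun ω : ι → Ω => ω ∘ e) ⁻¹' Set.pi univ s =
      Set.pi univ (Function.extend e s fun _ => univ) := by
    ext ω
    simp only [mem_preimage, mem_univ_pi, Function.comp_apply]
    refine ⟨fun h i => ?_, fun h k => by simpa [he.extend_apply] using h (e k)⟩
    by_cases hi : ∃ k, e k = i
    · obtain ⟨k, rfl⟩ := hi; simpa [he.extend_apply] using h k
    · simp [Function.extend_apply' _ _ _ hi]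
  rw [this, Measure.pi_pi]
  exact (Fintype.prod_of_injective e he _ _
    (fun i hi => by rw [Function.extend_apply' _ _ _ fun ⟨k, hk⟩ => hi ⟨k, hk⟩, measure_univ])
    fun k => by rw [he.extend_apply]).symm

namespace Tower

variable (T : Tower S Ω)

/-- The field of replica `a` on entering level `j`. -/
def pos (A : LMat r N) (ω : Fin (r + 1) × Fin N → Ω) : ℕ → Fin N → S
  | 0, _ => T.x0
  | j + 1, a => T.step j (pos A ω j a) (ω (lvl r j, rep (lvl r j) A a))

/-- The weight of a tree of balls. -/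
noncomputable def wt (U : S → ℝ) (A : LMat r N) (ω : Fin (r + 1) × Fin N → Ω) : ℝ :=
  ∏ j ∈ Finset.range (r + 1), ∏ b ∈ reps A j,
    T.edge (r + 1) U j (T.pos A ω j b) (T.pos A ω (j + 1) b)

/-- The tilted average of insertions at the leaves. -/
noncomputable def tilt (U : S → ℝ) (A : LMat r N) (g : Fin N → S → ℝ) : ℝ :=
  ∫ ω, T.wt U A ω * ∏ a, g a (T.pos A ω (r + 1) a) ∂T.noise r N

/-- The average of insertions at the leaves. -/
noncomputable def plain (A : LMat r N) (g : Fin N → S → ℝ) : ℝ :=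
  ∫ ω, ∏ a, g a (T.pos A ω (r + 1) a) ∂T.noise r N

/-- A tilted average with one more insertion, carried to the entrance of level `j` of replica `a`. -/
noncomputable def mark (U : S → ℝ) (A : LMat r N) (g : Fin N → S → ℝ) (ψ : S → ℝ) (j : ℕ)
    (a : Fin N) : ℝ :=
  ∫ ω, T.wt U A ω * (∏ c, g c (T.pos A ω (r + 1) c)) *
    T.up (r + 1) U ψ (r + 1) (r + 1 - j) (T.pos A ω j a) ∂T.noise r N

variable {T} {U : S → ℝ} {L : ℝ} {A : LMat r N}

lemma measurable_pos (A : LMat r N) : ∀ j a, Measurable fun ω => T.pos A ω j a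
  | 0, _ => measurable_const
  | j + 1, a => (T.meas j).comp ((measurable_pos A j a).prodMk (measurable_pi_apply _))

lemma pos_congr (hA : Good A) (ω : Fin (r + 1) × Fin N → Ω) {a b : Fin N} :
    ∀ i, (∀ j, j < i → lvl r j ≤ A a b) → T.pos A ω i a = T.pos A ω i b
  | 0, _ => rfl
  | i + 1, h => by
    simp only [pos]
    rw [pos_congr hA ω i fun j hj => h j (hj.trans i.lt_succ_self),
      (hA.rep_eq_iff _ a b).2 (h i i.lt_succ_self)]

lemma pos_update [DecidableEq (Fin (r + 1) × Fin N)] (A : LMat r N) (ω : Fin (r + 1) × Fin N → Ω)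
    {j : ℕ} (hj : j ≤ r) (b : Fin N) (ξ : Ω) :
    ∀ i, i ≤ j → ∀ a, T.pos A (Function.update ω (lvl r j, b) ξ) i a = T.pos A ω i a
  | 0, _, _ => rfl
  | i + 1, hi, a => by
    simp only [pos]
    rw [pos_update A ω hj b ξ i (by omega) a, Function.update_of_ne]
    exact fun h => lvl_ne hi hj (congrArg Prod.fst h)

lemma measurable_wt (hU : Bdd U L) (A : LMat r N) : Measurable (T.wt U A) :=
  Finset.measurable_prod _ fun j _ => Finset.measurable_prod _ fun b _ =>
    (measurable_edge hU j).comp ((measurable_pos A j b).prodMk (measurable_pos A (j + 1) b))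

lemma wt_pos (hU : Bdd U L) (A : LMat r N) (ω : Fin (r + 1) × Fin N → Ω) : 0 < T.wt U A ω :=
  Finset.prod_pos fun j _ => Finset.prod_pos fun b _ => edge_pos hU j _ _

lemma wt_le (hU : Bdd U L) (hL : 0 ≤ L) (A : LMat r N) (ω : Fin (r + 1) × Fin N → Ω) :
    T.wt U A ω ≤ (Real.exp (2 * L) ^ (r + 1)) ^ N := by
  have h1 : 1 ≤ Real.exp (2 * L) := Real.one_le_exp (by linarith)
  refine (Finset.prod_le_prod (fun j _ => (Finset.prod_pos fun _ _ => edge_pos hU j _ _).le)
    fun j _ => ((Finset.prod_le_prod (fun b _ => (edge_pos hU j _ _).le)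
      fun _ _ => edge_le hU hL j _ _).trans_eq (Finset.prod_const _)).trans
      (pow_le_pow_right₀ h1 ((Finset.card_le_univ _).trans_eq (Fintype.card_fin N)))).trans_eq ?_
  rw [Finset.prod_const, Finset.card_range, ← pow_mul, ← pow_mul, mul_comm N]

lemma integrable_noise {f : (Fin (r + 1) × Fin N → Ω) → ℝ} {B : ℝ} (hf : Bdd f B) :
    Integrable f (T.noise r N) :=
  Integrable.mono' (integrable_const B) hf.meas.aestronglyMeasurable
    (Eventually.of_forall fun ω => hf.le _)

lemma bdd_prod {α X : Type} [MeasurableSpace X] (s : Finset α) {f : α → X → ℝ} {B : α → ℝ}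
    (hf : ∀ a ∈ s, Bdd (f a) (B a)) : Bdd (fun x => ∏ a ∈ s, f a x) (∏ a ∈ s, B a) :=
  ⟨Finset.measurable_prod _ fun a ha => (hf a ha).meas, fun x => by
    rw [Finset.abs_prod]
    exact Finset.prod_le_prod (fun a _ => abs_nonneg _) fun a ha => (hf a ha).le x⟩

lemma bdd_mul {X : Type} [MeasurableSpace X] {f g : X → ℝ} {B B' : ℝ} (hf : Bdd f B) (hg : Bdd g B') :
    Bdd (fun x => f x * g x) (B * B') :=
  ⟨hf.meas.mul hg.meas, fun x => by
    rw [abs_mul]
    exact mul_le_mul (hf.le x) (hg.le x) (abs_nonneg _) ((abs_nonneg _).trans (hf.le x))⟩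

lemma bdd_at {η : S → ℝ} {B : ℝ} (hη : Bdd η B) (A : LMat r N) (j : ℕ) (a : Fin N) :
    Bdd (fun ω => η (T.pos A ω j a)) B :=
  ⟨hη.meas.comp (measurable_pos A j a), fun _ => hη.le _⟩

lemma bdd_wt (hU : Bdd U L) (hL : 0 ≤ L) (A : LMat r N) :
    Bdd (T.wt U A) ((Real.exp (2 * L) ^ (r + 1)) ^ N) :=
  ⟨measurable_wt hU A, fun ω => by rw [abs_of_pos (wt_pos hU A ω)]; exact wt_le hU hL A ω⟩

/-! ### Removing the last replica -/

variable {A' : LMat r (N + 1)}

/-- The old noises inside the new ones. -/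
def oldCoord (p : Fin (r + 1) × Fin N) : Fin (r + 1) × Fin (N + 1) := (p.1, p.2.castSucc)

lemma oldCoord_injective : Function.Injective (oldCoord (r := r) (N := N)) :=
  fun _ _ h => by
    simp only [oldCoord, Prod.mk.injEq, Fin.castSucc_inj] at h
    exact Prod.ext h.1 h.2

lemma pos_old (hA : Good A') (ω : Fin (r + 1) × Fin (N + 1) → Ω) :
    ∀ j (a : Fin N), T.pos A' ω j a.castSucc =
      T.pos (P157.Low.sub A' Fin.castSucc) (ω ∘ oldCoord) j a
  | 0, _ => rfl
  | j + 1, a => by
    simp only [pos, pos_old hA ω j a, rep_castSucc hA, Function.comp_apply, oldCoord]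

/-- The entrance of the first own level of the new replica, as a function of the old noises. -/
noncomputable def entry (A' : LMat r (N + 1)) (η : Fin (r + 1) × Fin N → Ω) : S :=
  if h : 0 < top A' then T.pos (P157.Low.sub A' Fin.castSucc) η (top A') (exists_anchor h).choose
  else T.x0

lemma pos_top (hA : Good A') (ω : Fin (r + 1) × Fin (N + 1) → Ω) :
    T.pos A' ω (top A') (Fin.last N) = T.entry A' (ω ∘ oldCoord) := by
  unfold entry
  split_ifs with h
  · rw [← pos_old hA ω]
    exact pos_congr hA ω _ (exists_anchor h).choose_spec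
  · rw [Nat.eq_zero_of_not_pos h]; rfl

lemma measurable_entry (A' : LMat r (N + 1)) : Measurable (T.entry A') := by
  unfold entry
  split_ifs with h
  · exact measurable_pos _ _ _
  · exact measurable_const

/-- The chain of the new replica between levels `top` and `j`. -/
noncomputable def chain (U : S → ℝ) (A' : LMat r (N + 1)) (j : ℕ)
    (ω : Fin (r + 1) × Fin (N + 1) → Ω) : ℝ :=
  ∏ i ∈ Finset.Ico (top A') j,
    T.edge (r + 1) U i (T.pos A' ω i (Fin.last N)) (T.pos A' ω (i + 1) (Fin.last N))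

lemma wt_split (hA : Good A') (U : S → ℝ) (ω : Fin (r + 1) × Fin (N + 1) → Ω) :
    T.wt U A' ω = T.wt U (P157.Low.sub A' Fin.castSucc) (ω ∘ oldCoord) * T.chain U A' (r + 1) ω := by
  have hsplit : ∀ j ∈ Finset.range (r + 1),
      ∏ b ∈ reps A' j, T.edge (r + 1) U j (T.pos A' ω j b) (T.pos A' ω (j + 1) b) =
      (∏ b ∈ reps (P157.Low.sub A' Fin.castSucc) j, T.edge (r + 1) U j
          (T.pos (P157.Low.sub A' Fin.castSucc) (ω ∘ oldCoord) j b)
          (T.pos (P157.Low.sub A' Fin.castSucc) (ω ∘ oldCoord) (j + 1) b)) *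
        if top A' ≤ j then
          T.edge (r + 1) U j (T.pos A' ω j (Fin.last N)) (T.pos A' ω (j + 1) (Fin.last N))
        else 1 := by
    intro j hj
    have hj' : j ≤ r := Nat.lt_succ_iff.1 (Finset.mem_range.1 hj)
    simp only [reps, Finset.prod_filter, Fin.prod_univ_castSucc, rep_castSucc hA,
      Fin.castSucc_inj, pos_old hA, rep_last_iff hA hj']
  rw [wt, Finset.prod_congr rfl hsplit, Finset.prod_mul_distrib, ← wt, ← Finset.prod_filter, chain]
  congr 2
  ext i
  simp only [Finset.mem_filter, Finset.mem_range, Finset.mem_Ico]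
  tauto

lemma chain_succ {j : ℕ} (hj : top A' ≤ j) (U : S → ℝ) (ω : Fin (r + 1) × Fin (N + 1) → Ω) :
    T.chain U A' (j + 1) ω = T.chain U A' j ω *
      T.edge (r + 1) U j (T.pos A' ω j (Fin.last N)) (T.pos A' ω (j + 1) (Fin.last N)) := by
  rw [chain, chain, Finset.prod_Ico_succ_top hj]

/-- The fresh levels of the new replica below `l` integrate to tilted averages. -/
lemma integral_chain (hA : Good A') (hU : Bdd U L) (hL : 0 ≤ L)
    {H : (Fin (r + 1) × Fin (N + 1) → Ω) → ℝ} {BH : ℝ} (hH : Bdd H BH) {θ : S → ℝ} {B : ℝ}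
    (hθ : Bdd θ B) {l : ℕ} (hl : l ≤ r + 1) (k : ℕ) (hk : k ≤ l - top A')
    (hfree : ∀ j, l - k ≤ j → j < l → ∀ ω ξ,
      H (Function.update ω (lvl r j, Fin.last N) ξ) = H ω) :
    ∫ ω, H ω * T.chain U A' l ω * θ (T.pos A' ω l (Fin.last N)) ∂T.noise r (N + 1) =
      ∫ ω, H ω * T.chain U A' (l - k) ω *
        T.up (r + 1) U θ l k (T.pos A' ω (l - k) (Fin.last N)) ∂T.noise r (N + 1) := by
  classical
  induction k with
  | zero => rfl
  | succ k ih =>
    rw [ih (by omega) fun j h1 h2 => hfree j (by omega) h2]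
    obtain ⟨j, hj⟩ : ∃ j, l - k = j + 1 := ⟨l - k - 1, by omega⟩
    have hj' : l - (k + 1) = j := by omega
    have hjr : j ≤ r := by omega
    have htj : top A' ≤ j := by omega
    rw [hj, hj', show T.up (r + 1) U θ l (k + 1) =
      T.tstep (r + 1) U j (T.up (r + 1) U θ l k) by rw [up, hj']]
    set η := T.up (r + 1) U θ l k
    have hη : Bdd η B := bdd_up hU hθ _ _
    set c : Fin (r + 1) × Fin (N + 1) := (lvl r j, Fin.last N)
    set G : (Fin (r + 1) × Fin (N + 1) → Ω) → ℝ := fun ω => H ω * T.chain U A' j ω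
    set F := fun ω => H ω * T.chain U A' (j + 1) ω * η (T.pos A' ω (j + 1) (Fin.last N))
    have hchain : ∀ i, Bdd (T.chain U A' i) (∏ _p ∈ Finset.Ico (top A') i, Real.exp (2 * L)) :=
      fun i => bdd_prod _ fun p _ => ⟨(measurable_edge hU p).comp
        ((measurable_pos A' p _).prodMk (measurable_pos A' (p + 1) _)), fun ω => by
          rw [abs_of_pos (edge_pos hU p _ _)]; exact edge_le hU hL p _ _⟩
    have hF := bdd_mul (bdd_mul hH (hchain (j + 1))) (bdd_at (T := T) hη A' (j + 1) (Fin.last N))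
    have hmp := measurePreserving_update (ι := Fin (r + 1) × Fin (N + 1)) T.μ c
    have key : ∀ ω ξ, F (Function.update ω c ξ) = G ω *
        (T.edge (r + 1) U j (T.pos A' ω j (Fin.last N))
          (T.step j (T.pos A' ω j (Fin.last N)) ξ) * η (T.step j (T.pos A' ω j (Fin.last N)) ξ)) := by
      intro ω ξ
      have h1 : H (Function.update ω c ξ) = H ω := hfree j (by omega) (by omega) ω ξ
      have h2 : T.chain U A' j (Function.update ω c ξ) = T.chain U A' j ω :=
        Finset.prod_congr rfl fun i hi => by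
          have := (Finset.mem_Ico.1 hi).2
          rw [pos_update A' ω hjr _ _ i (by omega), pos_update A' ω hjr _ _ (i + 1) this]
      have h3 : T.pos A' (Function.update ω c ξ) (j + 1) (Fin.last N) =
          T.step j (T.pos A' ω j (Fin.last N)) ξ := by
        rw [pos, pos_update A' ω hjr _ _ j le_rfl, rep_last hA hjr htj]
        simp [c]
      simp only [F, G, chain_succ htj, h1, h2, h3, pos_update A' ω hjr _ _ j le_rfl, c]
      ring
    calc ∫ ω, F ω ∂T.noise r (N + 1)
        = ∫ p, F (Function.update p.1 c p.2) ∂(T.noise r (N + 1)).prod T.μ := by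
          show ∫ ω, F ω ∂(Measure.pi fun _ => T.μ) = _
          rw [← hmp.map_eq, integral_map hmp.measurable.aemeasurable
            (by rw [hmp.map_eq]; exact hF.meas.aestronglyMeasurable)]
          rfl
      _ = ∫ ω, ∫ ξ, F (Function.update ω c ξ) ∂T.μ ∂T.noise r (N + 1) :=
          integral_prod _ (Integrable.mono' (integrable_const _)
            (hF.meas.comp hmp.measurable).aestronglyMeasurable
            (Eventually.of_forall fun p => hF.le _))
      _ = ∫ ω, G ω * T.tstep (r + 1) U j η (T.pos A' ω j (Fin.last N)) ∂T.noise r (N + 1) := by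
          simp only [key, integral_const_mul, tstep]

/-- A tilted average with the new replica integrated out. -/
theorem tilt_snoc (hA : Good A') (hU : Bdd U L) (hL : 0 ≤ L) {g : Fin N → S → ℝ} {ψ : S → ℝ}
    {B : ℝ} (hg : ∀ a, Bdd (g a) B) (hψ : Bdd ψ B) :
    T.tilt U A' (Fin.snoc g ψ) = ∫ η, T.wt U (P157.Low.sub A' Fin.castSucc) η *
      (∏ a, g a (T.pos (P157.Low.sub A' Fin.castSucc) η (r + 1) a)) *
      T.up (r + 1) U ψ (r + 1) (r + 1 - top A') (T.entry A' η) ∂T.noise r N := by
  set A := P157.Low.sub A' Fin.castSucc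
  set H := fun η => T.wt U A η * ∏ a, g a (T.pos A η (r + 1) a)
  have hH := bdd_mul (bdd_wt (T := T) hU hL A)
    (bdd_prod Finset.univ fun a _ => bdd_at (T := T) (hg a) A (r + 1) a)
  have h0 : T.tilt U A' (Fin.snoc g ψ) = ∫ ω, H (ω ∘ oldCoord) * T.chain U A' (r + 1) ω *
      ψ (T.pos A' ω (r + 1) (Fin.last N)) ∂T.noise r (N + 1) := by
    refine integral_congr_ae (Eventually.of_forall fun ω => ?_)
    simp only [wt_split hA, Fin.prod_univ_castSucc, Fin.snoc_castSucc, Fin.snoc_last, pos_old hA, H, A]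
    ring
  have hco : Measurable fun ω : Fin (r + 1) × Fin (N + 1) → Ω => ω ∘ oldCoord :=
    measurable_pi_lambda _ fun _ => measurable_pi_apply _
  have hH' : Bdd (fun ω => H (ω ∘ oldCoord)) _ := ⟨hH.meas.comp hco, fun _ => hH.le _⟩
  rw [h0, integral_chain hA hU hL hH' hψ le_rfl (r + 1 - top A') le_rfl fun j _ _ ω ξ => congrArg H
    (funext fun p => Function.update_of_ne
      (fun h => (Fin.castSucc_lt_last p.2).ne (congrArg Prod.snd h)) _ _),
    Nat.sub_sub_self (top_le A')]
  simp only [pos_top hA, chain, Finset.Ico_self, Finset.prod_empty, mul_one]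
  have hmp := measurePreserving_comp T.μ (oldCoord_injective (r := r) (N := N))
  show ∫ ω, _ ∂(Measure.pi fun _ => T.μ) = ∫ η, _ ∂(Measure.pi fun _ => T.μ)
  conv_rhs => rw [← hmp.map_eq]
  rw [integral_map hmp.measurable.aemeasurable]
  exact ((measurable_wt hU A).mul (Finset.measurable_prod _ fun a _ =>
    (hg a).meas.comp (measurable_pos A _ a))).mul
      ((bdd_up hU hψ _ _).meas.comp (measurable_entry A')) |>.aestronglyMeasurable

/-- The same as a sum over the balls the new replica joins. -/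
theorem tilt_snoc_eq (hA : Good A') (hU : Bdd U L) (hL : 0 ≤ L) {g : Fin N → S → ℝ} {ψ : S → ℝ}
    {B : ℝ} (hg : ∀ a, Bdd (g a) B) (hψ : Bdd ψ B) :
    T.tilt U A' (Fin.snoc g ψ) =
      (∫ η, T.wt U (P157.Low.sub A' Fin.castSucc) η *
        (∏ a, g a (T.pos (P157.Low.sub A' Fin.castSucc) η (r + 1) a)) *
          T.up (r + 1) U ψ (r + 1) (r + 1) T.x0 ∂T.noise r N) +
      ∑ j ∈ Finset.range (r + 1), ∑ b ∈ reps (P157.Low.sub A' Fin.castSucc) j,
        if lvl r j ≤ A' b.castSucc (Fin.last N) then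
          T.mark U (P157.Low.sub A' Fin.castSucc) g ψ (j + 1) b -
            T.mark U (P157.Low.sub A' Fin.castSucc) g ψ j b else 0 := by
  rw [tilt_snoc hA hU hL hg hψ]
  set A := P157.Low.sub A' Fin.castSucc
  have hAg : Good A := good_sub hA _
  rcases Nat.eq_zero_or_pos (top A') with h | h
  · rw [Finset.sum_eq_zero fun j hj => Finset.sum_eq_zero fun b _ => if_neg ?_, add_zero]
    · simp only [entry, h, lt_irrefl, dite_false, Nat.sub_zero, A]
    · rw [hA.symm]
      exact (top_le_iff (Nat.lt_succ_iff.1 (Finset.mem_range.1 hj))).1 (by omega) b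
  set a0 := (exists_anchor h).choose
  have ha0 : ∀ j < top A', lvl r j ≤ A' (Fin.last N) a0.castSucc := (exists_anchor h).choose_spec
  have inner : ∀ j ∈ Finset.range (r + 1),
      (∑ b ∈ reps A j, if lvl r j ≤ A' b.castSucc (Fin.last N) then
        T.mark U A g ψ (j + 1) b - T.mark U A g ψ j b else 0) =
      if j < top A' then T.mark U A g ψ (j + 1) a0 - T.mark U A g ψ j a0 else 0 := by
    intro j hj
    have hj' : j ≤ r := Nat.lt_succ_iff.1 (Finset.mem_range.1 hj)
    split_ifs with hlt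
    · rw [Finset.sum_eq_single (rep (lvl r j) A a0)]
      · have hm : lvl r j ≤ A a0 (rep (lvl r j) A a0) := hAg.meet_rep _ _
        have hm' : lvl r j ≤ A' (rep (lvl r j) A a0).castSucc (Fin.last N) :=
          hA.trans (by rw [hA.symm]; exact hm) (by rw [hA.symm]; exact ha0 j hlt)
        have e : ∀ i, i ≤ j + 1 → ∀ η, T.pos A η i (rep (lvl r j) A a0) = T.pos A η i a0 :=
          fun i hi η => (pos_congr hAg η i fun i' hi' =>
            (lvl_mono (by omega)).trans hm).symm
        simp only [if_pos hm', mark, e (j + 1) le_rfl, e j (by omega)]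
      · intro b hb hne
        refine if_neg fun hb' => hne ?_
        rw [← (Finset.mem_filter.1 hb).2]
        exact (hAg.rep_eq_iff _ _ _).2 (hA.trans hb' (ha0 j hlt))
      · exact fun h' => absurd (rep_mem_reps hAg j a0) h'
    · refine Finset.sum_eq_zero fun b _ => if_neg ?_
      rw [hA.symm]
      exact (top_le_iff hj').1 (by omega) b
  rw [Finset.sum_congr rfl inner, ← Finset.sum_filter]
  have hr : (Finset.range (r + 1)).filter (· < top A') = Finset.range (top A') := by
    ext i
    have := top_le A'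
    simp only [Finset.mem_filter, Finset.mem_range]
    omega
  rw [hr, Finset.sum_range_sub fun j => T.mark U A g ψ j a0, show T.mark U A g ψ 0 a0 =
    ∫ η, T.wt U A η * (∏ a, g a (T.pos A η (r + 1) a)) *
      T.up (r + 1) U ψ (r + 1) (r + 1) T.x0 ∂T.noise r N from rfl, add_sub_cancel]
  simp only [mark, entry, dif_pos h, A, a0]

end Tower

end Vale.Agent.P166F.Low.Cascade
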