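import Vale.Agent.P166F.Low.Cascade.Ident

/-!
P166: the series in closed form for one and for two insertions, and the series of the logarithm.
-/

namespace Vale.Agent.P166F.Low.Cascade

open MeasureTheory Set Filter Tower Vale.Agent.P157.Low

variable {r n : ℕ} {S Ω : Type} [MeasurableSpace S] [MeasurableSpace Ω] {T : Tower S Ω} {U : S → ℝ}
  {L B : ℝ}

namespace Tower

lemma top_zero (A : LMat r (0 + 1)) : top A = 0 := by simp [top]

lemma chain_self (U : S → ℝ) {N : ℕ} (A' : LMat r (N + 1)) (ω : Fin (r + 1) × Fin (N + 1) → Ω) :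
    T.chain U A' (top A') ω = 1 := by simp [chain]

/-- One insertion. -/
theorem tilt_one {A : LMat r 1} (hA : Good A) (hU : Bdd U L) (hL : 0 ≤ L) {θ : Fin 1 → S → ℝ}
    (hθ : Bdd (θ 0) B) : T.tilt U A θ = T.up (r + 1) U (θ 0) (r + 1) (r + 1) T.x0 := by
  have e : θ = Fin.snoc (fun a : Fin 0 => a.elim0) (θ 0) := by
    funext a; rw [Fin.eq_zero a]; rfl
  conv_lhs => rw [e]
  rw [tilt_snoc hA hU hL (B := B) (fun a => a.elim0) hθ]
  simp [wt, reps, entry, top_zero]

/-- Two insertions. -/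
theorem tilt_two {A : LMat r 2} (hA : Good A) (hU : Bdd U L) (hL : 0 ≤ L) {θ : Fin 2 → S → ℝ}
    (hθ : ∀ a, Bdd (θ a) B) :
    T.tilt U A θ = T.up (r + 1) U (fun y =>
        T.up (r + 1) U (θ 0) (r + 1) (r - (A 0 1 : ℕ)) y *
          T.up (r + 1) U (θ 1) (r + 1) (r - (A 0 1 : ℕ)) y)
      ((A 0 1 : ℕ) + 1) ((A 0 1 : ℕ) + 1) T.x0 := by
  have e : θ = Fin.snoc (fun _ : Fin 1 => θ 0) (θ 1) := by
    funext a; fin_cases a <;> rfl
  have hK : top A = (A 0 1 : ℕ) + 1 := by
    rw [hA.symm 0 1]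
    simp [top]
  set K := (A 0 1 : ℕ) + 1
  have hKr : K ≤ r + 1 := (A 0 1).isLt
  set A1 := P157.Low.sub A (Fin.castSucc : Fin 1 → Fin 2)
  have hA1 : Good A1 := good_sub hA _
  set η := T.up (r + 1) U (θ 1) (r + 1) (r - (A 0 1 : ℕ))
  have hη : Bdd η B := bdd_up hU (hθ 1) _ _
  have hpos : 0 < top A := by omega
  have hent : ∀ ω, T.entry A ω = T.pos A1 ω K 0 := fun ω => by
    rw [entry, dif_pos hpos, Fin.eq_zero (exists_anchor hpos).choose, hK]
  conv_lhs => rw [e]
  rw [tilt_snoc hA hU hL (fun _ => hθ 0) (hθ 1), hK,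
    show r + 1 - K = r - (A 0 1 : ℕ) by omega]
  simp only [hent, Fin.prod_univ_one]
  have hw : ∀ ω, T.wt U A1 ω = T.chain U (N := 0) A1 (r + 1) ω := fun ω => by
    rw [wt_split (N := 0) hA1]
    simp [wt, reps]
  have hlast : (Fin.last 0 : Fin 1) = 0 := rfl
  have ht0 : top (N := 0) A1 = 0 := top_zero A1
  have hb : Bdd (fun ω => η (T.pos A1 ω K 0)) B := bdd_at (T := T) hη A1 K 0
  have h1 := integral_chain (T := T) (N := 0) hA1 hU hL hb (hθ 0) le_rfl (r + 1 - K) (by omega)
    (fun j hj hj' ω ξ => by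
      rw [pos_update (T := T) A1 ω (show j ≤ r by omega) _ ξ K (by omega) 0])
  have h2 := integral_chain (T := T) (N := 0) hA1 hU hL (H := fun _ => (1 : ℝ)) (BH := 1)
    ⟨measurable_const, fun _ => by simp⟩
    (bdd_mul (bdd_up (R := r + 1) (T := T) hU (hθ 0) (r + 1) (r + 1 - K)) hη) hKr K (by omega)
    (fun _ _ _ _ _ => rfl)
  rw [show r + 1 - (r + 1 - K) = K by omega] at h1
  rw [Nat.sub_self] at h2
  simp only [hlast, pos, one_mul] at h1 h2
  rw [show T.chain U (N := 0) A1 0 = fun _ => 1 by funext ω; simp [chain]] at h2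
  calc ∫ ω, T.wt U A1 ω * θ 0 (T.pos A1 ω (r + 1) 0) * η (T.pos A1 ω K 0) ∂T.noise r 1
      = ∫ ω, η (T.pos A1 ω K 0) * T.chain U (N := 0) A1 (r + 1) ω * θ 0 (T.pos A1 ω (r + 1) 0)
          ∂T.noise r (0 + 1) := by
        simp only [hw]
        exact integral_congr_ae (Eventually.of_forall fun ω => by ring)
    _ = ∫ ω, T.chain U (N := 0) A1 K ω * (T.up (r + 1) U (θ 0) (r + 1) (r + 1 - K) (T.pos A1 ω K 0) *
          η (T.pos A1 ω K 0)) ∂T.noise r (0 + 1) := by
        simp only [pos]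
        rw [h1]
        exact integral_congr_ae (Eventually.of_forall fun ω => by ring)
    _ = _ := by
        rw [h2]
        simp [show r + 1 - K = r - (A 0 1 : ℕ) by omega, η]

variable {C : Casc r} {X : S → ℝ} {ρ : ℝ}

/-- The series of insertions. -/
theorem ratio_series (hm : T.Fits C) (hX : Bdd X ρ) (h0 : 0 ≤ ρ) (h1 : ρ < 1) (Φ : LMat r n → ℝ)
    {θ : Fin n → S → ℝ} (hθ : ∀ a, Bdd (θ a) B) :
    (∑' k : ℕ, (negCoef n k : ℝ) * ∑ A, C.P (n + k) A * (Φ (P157.Low.sub A (Fin.castAdd k)) *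
        T.plain A (Fin.append (fun a y => θ a y * (1 - X y)) fun _ => X))) =
      T.av C (fun y => Real.log (1 - X y)) Φ θ := by
  have hθ' : ∀ a, Bdd (fun y => θ a y * (1 - X y)) (B * (1 + ρ)) := fun a =>
    Tower.bdd_mul (hθ a) ⟨measurable_const.sub hX.meas, fun y =>
      (abs_sub _ _).trans (by rw [abs_one]; linarith [hX.le y])⟩
  have key := Tower.series_eq (T := T) hm hX h0 h1 (Φ := Φ) hθ' (t := 1) ⟨zero_le_one, le_rfl⟩
  have he : ∀ k, extFn (fun a y => θ a y * (1 - X y)) X (n + k) =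
      Fin.append (fun a y => θ a y * (1 - X y)) (fun _ => X) := fun k => by
    funext a
    refine a.addCases (fun i => ?_) fun i => ?_
    · simp [extFn]
    · simp [extFn]
  have hl : ∀ y, 1 - X y ≠ 0 := fun y => by linarith [(abs_le.1 (hX.le y)).2]
  rw [Tower.series, relAv] at key
  have e1 : (fun a => relT X (fun y => θ a y * (1 - X y)) 1) = θ := by
    funext a y; simp only [relT, one_mul]; rw [mul_div_assoc, div_self (hl y), mul_one]
  have e2 : potT X 1 = fun y => Real.log (1 - X y) := by funext y; simp [potT]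
  rw [e1, e2] at key
  rw [← key]
  refine tsum_congr fun k => ?_
  rw [one_pow, mul_one, term, dif_pos (Nat.le_add_right n k), he]
  rfl

/-- The series of the logarithm. -/
theorem log_series (hm : T.Fits C) (hX : Bdd X ρ) (h0 : 0 ≤ ρ) (h1 : ρ < 1) :
    (∑' k : ℕ, (∑ A, C.P (k + 1) A * T.plain A fun _ => X) / ((k : ℝ) + 1)) =
      -T.lev (r + 1) (fun y => Real.log (1 - X y)) 0 T.x0 := by
  obtain ⟨hσ0, hσ, hρσ, hsub⟩ := tame_props h0 h1
  set a : ℕ → ℝ := fun k => ∑ A, C.P (k + 1) A * T.plain A fun _ => X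
  have hterm : ∀ k, T.term C X (fun _ : LMat r 1 => 1) (fun _ => X) (1 + k) = a k := fun k => by
    rw [term, dif_pos (Nat.le_add_right 1 k), show 1 + k = k + 1 by omega]
    rw [show extFn (fun _ : Fin 1 => X) X (k + 1) = fun _ => X by funext i; simp [extFn]]
    simp [a]
  have hak : ∀ k, |a k| ≤ ρ ^ k := fun k => by
    have := abs_term_le (T := T) (C := C) hX (Φ := fun _ : LMat r 1 => 1) (D := 1) (fun _ => by simp)
      (θ := fun _ => X) (B := 1) (fun _ => ⟨hX.meas, fun y => (hX.le y).trans h1.le⟩) k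
    rwa [hterm, one_pow, one_mul, one_mul] at this
  set F : ℝ → ℝ := fun t =>
    (∑' k, t ^ (k + 1) * a k / ((k : ℝ) + 1)) + T.lev (r + 1) (potT X t) 0 T.x0
  have hder : ∀ t ∈ Icc (0 : ℝ) 1, HasDerivAt F 0 t := by
    intro t htI
    have ht : t ∈ times ρ := hsub htI
    have hb : ∀ (k : ℕ), ∀ s ∈ times ρ, ‖s ^ k * a k‖ ≤ tame ρ ^ k := fun k s hs => by
      rw [Real.norm_eq_abs, abs_mul, abs_pow]
      exact (mul_le_mul_of_nonneg_left (hak k) (by positivity)).trans
        (abs_pow_mul_le (fun y => abs_mul_le_tame h0 h1 hs) h0 k)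
    have hd := hasDerivAt_tsum_of_isPreconnected
      (summable_geometric_of_lt_one hσ0 hσ) (isOpen_Ioo (a := (-1 : ℝ)) (b := 2 / (1 + ρ)))
      isPreconnected_Ioo (g := fun k s => s ^ (k + 1) * a k / ((k : ℝ) + 1))
      (g' := fun k s => s ^ k * a k) (fun k s _ => (((hasDerivAt_pow (k + 1) s).mul_const (a k)).div_const
        ((k : ℝ) + 1)).congr_deriv (by
          have : (k : ℝ) + 1 ≠ 0 := by positivity
          simp only [Nat.add_sub_cancel]
          push_cast
          field_simp))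
      (fun k s hs => hb k s hs) (hsub ⟨le_rfl, zero_le_one⟩ : (0 : ℝ) ∈ times ρ)
      (summable_zero.congr fun k => by simp) ht
    have hs : (∑' k, t ^ k * a k) = T.rateAt (r + 1) (potT X) (rateT X) t 0 T.x0 := by
      have key := Tower.series_eq (T := T) hm hX h0 h1 (Φ := fun _ : LMat r 1 => 1)
        (θ := fun _ => X) (B := ρ) (fun _ => hX) (t := t) htI
      simp only [Tower.series, hterm, negCoef, Nat.zero_add, Nat.choose_self, Nat.cast_one,
        one_mul, relAv, av] at key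
      rw [key, rateAt, Nat.sub_zero]
      refine (Finset.sum_congr rfl fun A _ => ?_).trans
        (by rw [← Finset.sum_mul, C.total, one_mul])
      rcases eq_or_ne (C.P 1 A) 0 with h | h
      · simp [h]
      · rw [tilt_one (C.good h) ((drift hX h0 h1).pot t ht)
          (neg_nonneg.2 (Real.log_nonpos (by linarith) (by linarith))) ((drift hX h0 h1).rate t ht)]
        rfl
    refine (hd.add (hasDerivAt_lev (drift hX h0 h1) 0 ht T.x0)).congr_deriv ?_
    rw [hs]; ring
  have hF : F 1 = F 0 := constant_of_has_deriv_right_zero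
    (fun t ht => (hder t ht).continuousAt.continuousWithinAt)
    (fun t ht => (hder t (Ico_subset_Icc_self ht)).hasDerivWithinAt) 1 ⟨zero_le_one, le_rfl⟩
  have e0 : F 0 = 0 := by
    have : potT X 0 = fun _ => (0 : ℝ) := by funext y; simp [potT]
    simp [F, this, lev, lev_zero]
  have e1 : F 1 = (∑' k, a k / ((k : ℝ) + 1)) +
      T.lev (r + 1) (fun y => Real.log (1 - X y)) 0 T.x0 := by
    have : potT X 1 = fun y => Real.log (1 - X y) := by funext y; simp [potT]
    simp [F, this]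
  rw [e1, e0] at hF
  linarith [hF]

end Tower

end Vale.Agent.P166F.Low.Cascade
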