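import Vale.Agent.P157.Low.Gauss2
import Vale.Agent.P166F.Low.Defs
import Vale.Agent.P166F.Low.Cascade.Insert

/-!
P166: the tower of several independent Gaussian fields, and Gaussian averages as averages of its trees.
-/

namespace Vale.Agent.P166F.Low.Cascade

open MeasureTheory ProbabilityTheory Set Filter Tower Vale.Agent.P157.Low
open scoped Topology

variable {ι : Type} [Fintype ι] {r n : ℕ}

/-- The standard Gaussian law of one noise. -/
noncomputable def normal (ι : Type) [Fintype ι] : Measure (ι → ℝ) := Measure.pi fun _ => gaussianReal 0 1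

instance (ι : Type) [Fintype ι] : IsProbabilityMeasure (normal ι) :=
  inferInstanceAs (IsProbabilityMeasure (Measure.pi _))

/-- Gaussian fields with variance increments `d` and exponents from the overlap law of `C`. -/
noncomputable def gaussTower (ι : Type) [Fintype ι] {r : ℕ} (C : Casc r) (d : Fin (r + 1) → ℝ) :
    Tower (ι → ℝ) (ι → ℝ) where
  step j y ξ := fun i => y i + Real.sqrt (d (lvl r j)) * ξ i
  μ := normal ι
  prob := inferInstance
  meas j := by fun_prop
  m j := C.cdf (lvl r j)
  mNonneg j := Finset.sum_nonneg fun A _ => mul_nonneg (C.nonneg 2 A) (by split_ifs <;> norm_num)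
  mLeOne j := (Finset.sum_le_sum fun A _ => mul_le_mul_of_nonneg_left
    (by split_ifs <;> norm_num : (if A 0 1 < lvl r j then (1 : ℝ) else 0) ≤ 1) (C.nonneg _ A)).trans_eq
      (by simpa using C.total 2)
  x0 := 0

variable {C : Casc r} {d : Fin (r + 1) → ℝ}

lemma gauss_fits : (gaussTower ι C d).Fits C := fun _ _ => rfl

lemma pos_sum (A : LMat r n) (ω : Fin (r + 1) × Fin n → ι → ℝ) (a : Fin n) (i : ι) :
    ∀ k, k ≤ r + 1 → (gaussTower ι C d).pos A ω k a i =
      ∑ j : Fin (r + 1), if (j : ℕ) < k then Real.sqrt (d j) * ω (j, rep j A a) i else 0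
  | 0, _ => by simp [Tower.pos, gaussTower]
  | k + 1, hk => by
    have hl : lvl r k = ⟨k, hk⟩ := Fin.ext (lvl_val (by omega))
    show (gaussTower ι C d).pos A ω k a i + Real.sqrt (d (lvl r k)) * ω (lvl r k, rep (lvl r k) A a) i = _
    rw [pos_sum A ω a i k (by omega), hl]
    have e : ∀ j : Fin (r + 1), (if (j : ℕ) < k + 1 then Real.sqrt (d j) * ω (j, rep j A a) i else 0) =
        (if (j : ℕ) < k then Real.sqrt (d j) * ω (j, rep j A a) i else 0) +
          if j = ⟨k, hk⟩ then Real.sqrt (d j) * ω (j, rep j A a) i else 0 := fun j => by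
      rcases lt_trichotomy (j : ℕ) k with h | h | h
      · simp [h, h.trans k.lt_succ_self, Fin.ext_iff, h.ne]
      · simp [h, Fin.ext_iff]
      · simp [Fin.ext_iff, h.ne', not_lt.2 h.le, show ¬(j : ℕ) < k + 1 by omega]
    simp only [e, Finset.sum_add_distrib, Finset.sum_ite_eq', Finset.mem_univ, if_true]

/-- The shared and the residual noises of `n` replicas. -/
abbrev Src (r n : ℕ) := (Fin (r + 1) × Fin n) ⊕ Fin n

lemma measurePreserving_swap (P : Type) [Fintype P] :
    MeasurePreserving (fun x : P → ι → ℝ => fun i p => x p i) (Measure.pi fun _ : P => normal ι)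
      (Measure.pi fun _ : ι => Measure.pi fun _ : P => gaussianReal 0 1) := by
  have h1 : MeasurePreserving (MeasurableEquiv.curry P ι ℝ) (Measure.pi fun _ : P × ι => gaussianReal 0 1)
      (Measure.pi fun _ : P => normal ι) := by
    refine ⟨(MeasurableEquiv.curry P ι ℝ).measurable, ?_⟩
    have := Measure.infinitePi_map_curry (ι := P) (κ := ι) (X := ℝ) fun _ _ => gaussianReal 0 1
    simpa [Measure.infinitePi_eq_pi, normal] using this
  have h2 : MeasurePreserving (MeasurableEquiv.curry ι P ℝ) (Measure.pi fun _ : ι × P => gaussianReal 0 1)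
      (Measure.pi fun _ : ι => Measure.pi fun _ : P => gaussianReal 0 1) := by
    refine ⟨(MeasurableEquiv.curry ι P ℝ).measurable, ?_⟩
    have := Measure.infinitePi_map_curry (ι := ι) (κ := P) (X := ℝ) fun _ _ => gaussianReal 0 1
    simpa [Measure.infinitePi_eq_pi] using this
  exact (h2.comp (measurePreserving_comp (gaussianReal 0 1)
    (e := (Prod.swap : ι × P → P × ι)) Prod.swap_injective)).comp h1.symm

/-- A linear image of independent Gaussians. -/
lemma map_linear {P : Type} [Fintype P] (v : Fin n → P → ℝ) :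
    (Measure.pi fun _ : P => gaussianReal 0 1).map (fun x a => ∑ p, v a p * x p) =
      (multivariateGaussian (0 : EuclideanSpace ℝ (Fin n))
        (Matrix.of fun a b => ∑ p, v a p * v b p)).map WithLp.ofLp := by
  have hm : Measurable fun (x : P → ℝ) (a : Fin n) => ∑ p, v a p * x p := by fun_prop
  have hm' : Measurable (WithLp.ofLp : EuclideanSpace ℝ (Fin n) → Fin n → ℝ) := by fun_prop
  ext s hs
  have hf : Measurable (s.indicator fun _ : Fin n → ℝ => (1 : ℝ)) := measurable_const.indicator hs
  set v' : Fin n → EuclideanSpace ℝ P := fun a => WithLp.toLp 2 (v a)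
  have h := integral_inner_eq_GE v' hf
  have hi : Measurable fun (g : EuclideanSpace ℝ P) (l : Fin n) => inner ℝ g (v' l) := by fun_prop
  have hT : Measurable fun x : P → ℝ => WithLp.toLp 2 x := by fun_prop
  rw [← map_pi_eq_stdGaussian, integral_map hT.aemeasurable
    (show AEStronglyMeasurable (fun g : EuclideanSpace ℝ P =>
      s.indicator (fun _ : Fin n → ℝ => (1 : ℝ)) fun l => inner ℝ g (v' l)) _ from
      (hf.comp hi).aestronglyMeasurable), GE,
    ← integral_map hm'.aemeasurable hf.aestronglyMeasurable] at h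
  simp only [v', PiLp.inner_apply, RCLike.inner_apply, conj_trivial] at h
  rw [show (fun a b => ∑ p, v b p * v a p) = fun a b => ∑ p, v a p * v b p by
    funext a b; simp only [mul_comm]] at h
  rw [← integral_map hm.aemeasurable hf.aestronglyMeasurable, integral_indicator_const _ hs,
    integral_indicator_const _ hs, smul_eq_mul, smul_eq_mul, mul_one, mul_one] at h
  exact (ENNReal.toReal_eq_toReal_iff' (measure_ne_top _ _) (measure_ne_top _ _)).1 h

/-- A Gaussian average of a product over the replicas is an average over the trees. -/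
theorem GV_prod {A : LMat r n} (hA : Good A) (hd : ∀ j, 0 ≤ d j) {rest : ℝ} (hr : 0 ≤ rest)
    {f : Fin n → (ι → ℝ) → ℝ} (hf : ∀ a, ∃ B, Bdd (f a) B) :
    GV (ccov d rest A) (fun h => ∏ a, f a (h a)) =
      (gaussTower ι C d).plain A fun a => heatV (f a) rest := by
  classical
  choose B hB using hf
  set v : Fin n → Src r n → ℝ := fun a => Sum.elim
    (fun p => if rep p.1 A a = p.2 then Real.sqrt (d p.1) else 0)
    (fun c => if c = a then Real.sqrt rest else 0)
  have hcov : (fun a b => ∑ p, v a p * v b p) = ccov d rest A := by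
    funext a b
    simp only [Fintype.sum_sum_type, Fintype.sum_prod_type, v, Sum.elim_inl, Sum.elim_inr, ccov, lcov,
      ite_mul, mul_ite, zero_mul, mul_zero, Finset.sum_ite_eq, Finset.mem_univ, if_true,
      Finset.sum_ite_eq']
    congr 1
    · refine Finset.sum_congr rfl fun i _ => ?_
      by_cases h : i ≤ A a b
      · rw [if_pos h, if_pos ((hA.rep_eq_iff i a b).2 h), Real.mul_self_sqrt (hd i)]
      · rw [if_neg h, if_neg fun e => h ((hA.rep_eq_iff i a b).1 e)]
    · rcases eq_or_ne a b with rfl | h
      · simp [Real.mul_self_sqrt hr]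
      · simp [h, h.symm]
  set G : (Fin n → ι → ℝ) → ℝ := fun h => ∏ a, f a (h a)
  have hG : Bdd G (∏ a, B a) :=
    bdd_prod Finset.univ fun a _ => ⟨(hB a).meas.comp (measurable_pi_apply a), fun x => (hB a).le _⟩
  set P0 := Measure.pi fun _ : Src r n => normal ι
  set Φ : (ι → Fin n → ℝ) → ℝ := fun g => G fun a i => g i a
  have hΦ : Measurable Φ := hG.meas.comp (by fun_prop)
  have hlin : Measurable fun (x : ι → Src r n → ℝ) (i : ι) (a : Fin n) => ∑ p, v a p * x i p := by
    fun_prop
  have hofLp : Measurable fun (g : ι → EuclideanSpace ℝ (Fin n)) (i : ι) => WithLp.ofLp (g i) := by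
    fun_prop
  have e1 : GV (ccov d rest A) G = ∫ x, G (fun a i => ∑ p, v a p * x p i) ∂P0 := by
    calc GV (ccov d rest A) G = ∫ g, Φ g ∂(Measure.pi fun _ : ι =>
          (multivariateGaussian (0 : EuclideanSpace ℝ (Fin n))
            (Matrix.of (ccov d rest A))).map WithLp.ofLp) := by
          rw [← Measure.pi_map_pi fun _ => by fun_prop,
            integral_map hofLp.aemeasurable hΦ.aestronglyMeasurable]
          rfl
      _ = ∫ x, Φ (fun i a => ∑ p, v a p * x i p)
          ∂(Measure.pi fun _ : ι => Measure.pi fun _ : Src r n => gaussianReal 0 1) := by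
          simp only [← hcov, ← map_linear v]
          have hw : ∀ w : Fin n → Src r n → ℝ, Measurable fun (x : Src r n → ℝ) (a : Fin n) =>
              ∑ p, w a p * x p := fun w => by fun_prop
          rw [← Measure.pi_map_pi (fun _ => (hw v).aemeasurable),
            integral_map hlin.aemeasurable hΦ.aestronglyMeasurable]
      _ = _ := by
          have hs := measurePreserving_swap (ι := ι) (Src r n)
          rw [← hs.map_eq, integral_map hs.measurable.aemeasurable
            (show AEStronglyMeasurable (fun x : ι → Src r n → ℝ => Φ fun i a => ∑ p, v a p * x i p) _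
              from (hΦ.comp hlin).aestronglyMeasurable)]
  set T := gaussTower ι C d
  have hlhs : ∀ x : Src r n → ι → ℝ, (fun a i => ∑ p, v a p * x p i) = fun a i =>
      T.pos A (fun p => x (Sum.inl p)) (r + 1) a i + Real.sqrt rest * x (Sum.inr a) i := fun x => by
    funext a i
    rw [pos_sum A _ a i (r + 1) le_rfl, Fintype.sum_sum_type, Fintype.sum_prod_type]
    simp only [v, Sum.elim_inl, Sum.elim_inr, ite_mul, zero_mul, Finset.sum_ite_eq, Finset.sum_ite_eq',
      Finset.mem_univ, if_true, Fin.is_lt]
  rw [e1]
  simp only [hlhs]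
  have hsum := measurePreserving_sumPiEquivProdPi (X := fun _ : Src r n => ι → ℝ) fun _ => normal ι
  set H : (Fin (r + 1) × Fin n → ι → ℝ) × (Fin n → ι → ℝ) → ℝ := fun q =>
    G fun a i => T.pos A q.1 (r + 1) a i + Real.sqrt rest * q.2 a i
  have hpos : ∀ a, Measurable fun ω => T.pos A ω (r + 1) a := fun a => measurable_pos A _ a
  have hH : Measurable H := hG.meas.comp (by fun_prop)
  calc ∫ x, G (fun a i => T.pos A (fun p => x (Sum.inl p)) (r + 1) a i +
        Real.sqrt rest * x (Sum.inr a) i) ∂P0
      = ∫ q, H q ∂((Measure.pi fun _ : Fin (r + 1) × Fin n => normal ι).prod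
          (Measure.pi fun _ : Fin n => normal ι)) := by
        rw [← hsum.map_eq, integral_map hsum.measurable.aemeasurable hH.aestronglyMeasurable]
        rfl
    _ = ∫ ω, ∫ z, H (ω, z) ∂(Measure.pi fun _ : Fin n => normal ι)
          ∂(Measure.pi fun _ : Fin (r + 1) × Fin n => normal ι) :=
        integral_prod H (Integrable.mono' (integrable_const (∏ a, B a)) hH.aestronglyMeasurable
          (Eventually.of_forall fun q => hG.le _))
    _ = _ := by
        refine integral_congr_ae (Eventually.of_forall fun ω => ?_)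
        simp only [H, G]
        exact integral_fintype_prod_eq_prod (μ := fun _ : Fin n => normal ι)
          fun a (z : ι → ℝ) => f a fun i => T.pos A ω (r + 1) a i + Real.sqrt rest * z i

end Vale.Agent.P166F.Low.Cascade
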