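import Vale.Agent.P166F.Low.Cascade.Series

/-!
P166: the series of a weight near a constant in a Ghirlanda–Guerra array are the tilted averages.
-/

namespace Vale.Agent.P166F.Low.Cascade

open MeasureTheory Set Filter Tower Vale.Agent.P157.Low
open scoped Topology

variable {r n : ℕ} {S Ω : Type} [MeasurableSpace S] [MeasurableSpace Ω]

/-- The times at which `1 - t X` stays positive. -/
def times (ρ : ℝ) : Set ℝ := Ioo (-1) (2 / (1 + ρ))

/-- The bound for `t X` on `times`. -/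
noncomputable def tame (ρ : ℝ) : ℝ := 2 * ρ / (1 + ρ)

/-- The potential at time `t`. -/
noncomputable def potT (X : S → ℝ) (t : ℝ) (y : S) : ℝ := Real.log (1 - t * X y)

/-- The rate at time `t`. -/
noncomputable def rateT (X : S → ℝ) (t : ℝ) (y : S) : ℝ := X y / (1 - t * X y)

/-- An insertion relative to the weight at time `t`. -/
noncomputable def relT (X θ : S → ℝ) (t : ℝ) (y : S) : ℝ := θ y / (1 - t * X y)

lemma tame_props {ρ : ℝ} (h0 : 0 ≤ ρ) (h1 : ρ < 1) :
    0 ≤ tame ρ ∧ tame ρ < 1 ∧ ρ ≤ tame ρ ∧ Icc (0 : ℝ) 1 ⊆ times ρ := by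
  refine ⟨by unfold tame; positivity, ?_, ?_, fun t ht => ⟨by linarith [ht.1], ?_⟩⟩
  · rw [tame, div_lt_one (by linarith)]; linarith
  · rw [tame, le_div_iff₀ (by linarith)]; nlinarith
  · rw [lt_div_iff₀ (by linarith)]; nlinarith [ht.2]

lemma abs_mul_le_tame {ρ : ℝ} (h0 : 0 ≤ ρ) (h1 : ρ < 1) {t : ℝ} (ht : t ∈ times ρ) {x : ℝ}
    (hx : |x| ≤ ρ) : |t * x| ≤ tame ρ := by
  have h : |t| ≤ 2 / (1 + ρ) := by
    refine abs_le.2 ⟨?_, ht.2.le⟩
    have : 1 ≤ 2 / (1 + ρ) := by rw [le_div_iff₀ (by linarith)]; linarith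
    linarith [ht.1]
  calc |t * x| = |t| * |x| := abs_mul t x
    _ ≤ 2 / (1 + ρ) * ρ := mul_le_mul h hx (abs_nonneg _) (by positivity)
    _ = tame ρ := by rw [tame]; ring

variable {X : S → ℝ} {ρ : ℝ}

lemma bdd_relT (hX : Bdd X ρ) (h0 : 0 ≤ ρ) (h1 : ρ < 1) {θ : S → ℝ} {B : ℝ} (hθ : Bdd θ B) {t : ℝ}
    (ht : t ∈ times ρ) : Bdd (relT X θ t) (B / (1 - tame ρ)) := by
  refine ⟨hθ.meas.div (measurable_const.sub (hX.meas.const_mul _)), fun y => ?_⟩
  obtain ⟨-, hσ, -, -⟩ := tame_props h0 h1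
  have h := abs_le.1 (abs_mul_le_tame h0 h1 ht (hX.le y))
  rw [relT, abs_div, abs_of_pos (show 0 < 1 - t * X y by linarith [h.2])]
  exact div_le_div₀ ((abs_nonneg _).trans (hθ.le y)) (hθ.le y) (by linarith) (by linarith [h.2])

/-- The potentials of the series drift with the rates. -/
lemma drift (hX : Bdd X ρ) (h0 : 0 ≤ ρ) (h1 : ρ < 1) :
    Drift (potT X) (rateT X) (times ρ) (-Real.log (1 - tame ρ)) (1 / (1 - tame ρ)) where
  isOpen := isOpen_Ioo
  pot t ht := by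
    refine ⟨(measurable_const.sub (hX.meas.const_mul _)).log, fun y => ?_⟩
    obtain ⟨hσ0, hσ, -, -⟩ := tame_props h0 h1
    obtain ⟨hl, hr⟩ := abs_le.1 (abs_mul_le_tame h0 h1 ht (hX.le y))
    have hpos : 0 < 1 - t * X y := by linarith
    rw [potT, abs_le, neg_neg]
    refine ⟨Real.log_le_log (by linarith) (by linarith), ?_⟩
    rw [← Real.log_inv]
    refine Real.log_le_log hpos ((by linarith : 1 - t * X y ≤ 1 + tame ρ).trans ?_)
    rw [← one_div, le_div_iff₀ (by linarith)]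
    nlinarith
  rate t ht := by
    have := bdd_relT hX h0 h1 (θ := X) (B := 1) ⟨hX.meas, fun y => (hX.le y).trans h1.le⟩ ht
    exact ⟨this.meas, this.le⟩
  deriv t ht y := by
    obtain ⟨-, hσ, -, -⟩ := tame_props h0 h1
    obtain ⟨-, hr⟩ := abs_le.1 (abs_mul_le_tame h0 h1 ht (hX.le y))
    refine ((((hasDerivAt_id t).mul_const (X y)).const_sub 1).log
      (show (1 : ℝ) - t * X y ≠ 0 by linarith)).congr_deriv ?_
    simp [rateT, neg_div]

lemma rel_rates (hX : Bdd X ρ) (h0 : 0 ≤ ρ) (h1 : ρ < 1) {θ : Fin n → S → ℝ} {B : ℝ}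
    (hθ : ∀ a, Bdd (θ a) B) :
    Rates (fun t a => relT X (θ a) t) (fun t a y => relT X (θ a) t y * rateT X t y) (times ρ)
      (B / (1 - tame ρ) * (1 / (1 - tame ρ)) + B / (1 - tame ρ) + 1 / (1 - tame ρ)) where
  val t ht a := by
    have h := bdd_relT hX h0 h1 (hθ a) ht
    obtain ⟨-, hσ, -, -⟩ := tame_props h0 h1
    refine ⟨h.meas, fun y => (h.le y).trans ?_⟩
    have : 0 ≤ B / (1 - tame ρ) := (abs_nonneg _).trans (h.le y)
    have : 0 ≤ 1 / (1 - tame ρ) := div_nonneg zero_le_one (by linarith)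
    nlinarith
  der t ht a := by
    have h := bdd_relT hX h0 h1 (hθ a) ht
    obtain ⟨-, hσ, -, -⟩ := tame_props h0 h1
    have h2 := Tower.bdd_mul h ((drift hX h0 h1).rate t ht)
    refine ⟨h2.meas, fun y => (h2.le y).trans ?_⟩
    have : 0 ≤ B / (1 - tame ρ) := (abs_nonneg _).trans (h.le y)
    have : 0 ≤ 1 / (1 - tame ρ) := div_nonneg zero_le_one (by linarith)
    linarith
  deriv t ht a y := by
    obtain ⟨-, hσ, -, -⟩ := tame_props h0 h1
    obtain ⟨-, hr⟩ := abs_le.1 (abs_mul_le_tame h0 h1 ht (hX.le y))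
    have hne : (1 : ℝ) - t * X y ≠ 0 := by linarith
    refine ((hasDerivAt_const t (θ a y)).fun_div
      (((hasDerivAt_id t).mul_const (X y)).const_sub 1) hne).congr_deriv ?_
    simp only [relT, rateT, id]
    field_simp
    ring

namespace Tower

variable (T : Tower S Ω) (C : Casc r)

/-- Insertions on the first replicas and the weight on the others. -/
def extFn (θ : Fin n → S → ℝ) (X : S → ℝ) (N : ℕ) : Fin N → S → ℝ :=
  fun a => if h : (a : ℕ) < n then θ ⟨a, h⟩ else X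

/-- One term of a series. -/
noncomputable def term (X : S → ℝ) (Φ : LMat r n → ℝ) (θ : Fin n → S → ℝ) (N : ℕ) : ℝ :=
  if h : n ≤ N then
    ∑ A, C.P N A * (Φ (P157.Low.sub A (Fin.castLE h)) * T.plain A (extFn θ X N))
  else 0

/-- The series at time `t`. -/
noncomputable def series (X : S → ℝ) (Φ : LMat r n → ℝ) (θ : Fin n → S → ℝ) (t : ℝ) : ℝ :=
  ∑' k : ℕ, (negCoef n k : ℝ) * t ^ k * T.term C X Φ θ (n + k)

/-- The tilted average at time `t`. -/
noncomputable def relAv (X : S → ℝ) (Φ : LMat r n → ℝ) (θ : Fin n → S → ℝ) (t : ℝ) : ℝ :=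
  T.av C (potT X t) Φ fun a => relT X (θ a) t

variable {T C}

lemma extFn_snoc (θ : Fin n → S → ℝ) (X : S → ℝ) (N : ℕ) :
    extFn (Fin.snoc θ X) X N = extFn θ X N := by
  funext a
  simp only [extFn]
  rcases lt_trichotomy (a : ℕ) n with h | h | h
  · rw [dif_pos (h.trans n.lt_succ_self), dif_pos h]
    exact Fin.snoc_castSucc (α := fun _ => S → ℝ) X θ ⟨a, h⟩
  · rw [dif_pos (by omega), dif_neg (by omega)]
    have : (⟨(a : ℕ), by omega⟩ : Fin (n + 1)) = Fin.last n := Fin.ext h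
    rw [this, Fin.snoc_last]
  · rw [dif_neg (by omega), dif_neg (by omega)]

lemma term_next (Φ : LMat r n → ℝ) (θ : Fin n → S → ℝ) {N : ℕ} (hN : n + 1 ≤ N) :
    T.term C X (fun A' => Φ (P157.Low.sub A' Fin.castSucc)) (Fin.snoc θ X) N =
      T.term C X Φ θ N := by
  rw [term, term, dif_pos hN, dif_pos (n.le_succ.trans hN), extFn_snoc]
  rfl

lemma abs_term_le (hX : Bdd X ρ) {Φ : LMat r n → ℝ} {D : ℝ} (hΦ : ∀ A, |Φ A| ≤ D)
    {θ : Fin n → S → ℝ} {B : ℝ} (hθ : ∀ a, Bdd (θ a) B) (k : ℕ) :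
    |T.term C X Φ θ (n + k)| ≤ D * (B ^ n * ρ ^ k) := by
  rw [term, dif_pos (Nat.le_add_right n k)]
  refine (Finset.abs_sum_le_sum_abs _ _).trans ?_
  have hp : ∀ A, |T.plain A (extFn θ X (n + k))| ≤ B ^ n * ρ ^ k := fun A => by
    set e : Fin (n + k) → ℝ := Fin.addCases (fun _ => B) fun _ => ρ
    have hb : ∀ a, Bdd (extFn θ X (n + k) a) (e a) := fun a => by
      refine a.addCases (fun i => ?_) fun i => ?_
      · simp [extFn, e, i.isLt, hθ]
      · simp [extFn, e, hX]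
    have h := bdd_prod Finset.univ fun a _ => bdd_at (T := T) (hb a) A (r + 1) a
    refine (norm_integral_le_of_norm_le_const (μ := T.noise r (n + k))
      (f := fun ω => ∏ a, extFn θ X (n + k) a (T.pos A ω (r + 1) a))
      (Eventually.of_forall h.le)).trans_eq ?_
    simp [e, Fin.prod_univ_add]
  calc ∑ A, |C.P (n + k) A * (Φ _ * T.plain A (extFn θ X (n + k)))|
      ≤ ∑ A, C.P (n + k) A * (D * (B ^ n * ρ ^ k)) := Finset.sum_le_sum fun A _ => by
        rw [abs_mul, abs_mul, abs_of_nonneg (C.nonneg _ A)]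
        exact mul_le_mul_of_nonneg_left (mul_le_mul (hΦ _) (hp A) (abs_nonneg _)
          ((abs_nonneg _).trans (hΦ fun _ _ => 0))) (C.nonneg _ A)
    _ = _ := by rw [← Finset.sum_mul, C.total, one_mul]

lemma hasSum_negCoef {σ : ℝ} (hσ : |σ| < 1) (n : ℕ) :
    HasSum (fun k : ℕ => (negCoef n k : ℝ) * σ ^ k) (1 / (1 - σ) ^ n) := by
  rcases n with _ | n
  · rw [pow_zero, div_one]
    refine (hasSum_ite_eq (α := ℝ) (0 : ℕ) 1).congr_fun fun k => ?_
    rcases k with _ | k <;> simp [negCoef]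
  · refine (hasSum_choose_mul_geometric_of_norm_lt_one n
      (by rwa [Real.norm_eq_abs] : ‖σ‖ < 1)).congr_fun fun k => ?_
    rw [negCoef, add_comm k n, Nat.choose_symm_add]

lemma summable_deriv {σ : ℝ} (h0 : 0 ≤ σ) (h1 : σ < 1) (n : ℕ) :
    Summable fun k : ℕ => (negCoef n k : ℝ) * k * σ ^ (k - 1) := by
  rw [← summable_nat_add_iff 1]
  refine ((hasSum_negCoef (by rwa [abs_of_nonneg h0]) (n + 1)).summable.mul_left (n : ℝ)).congr
    fun k => ?_
  simp only [Nat.cast_succ, add_tsub_cancel_right]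
  rw [← mul_assoc, ← negCoef_succ_mul]

lemma abs_pow_mul_le {t σ x : ℝ} (h : ∀ y, |y| ≤ x → |t * y| ≤ σ) (hx : 0 ≤ x) (k : ℕ) :
    |t| ^ k * x ^ k ≤ σ ^ k := by
  rw [← mul_pow]
  refine pow_le_pow_left₀ (by positivity) ?_ k
  have := h x (abs_of_nonneg hx).le
  rwa [abs_mul, abs_of_nonneg hx] at this

section

variable {Φ : LMat r n → ℝ} {D B : ℝ} {θ : Fin n → S → ℝ}

/-- The derivative of a series. -/
lemma hasDerivAt_series (hX : Bdd X ρ) (h0 : 0 ≤ ρ) (h1 : ρ < 1) (hΦ : ∀ A, |Φ A| ≤ D)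
    (hB : 0 ≤ B) (hθ : ∀ a, Bdd (θ a) B) {t : ℝ} (ht : t ∈ times ρ) :
    HasDerivAt (T.series C X Φ θ) ((n : ℝ) * T.series C X
      (fun A' => Φ (P157.Low.sub A' Fin.castSucc)) (Fin.snoc θ X) t) t := by
  obtain ⟨hσ0, hσ, -, hsub⟩ := tame_props h0 h1
  have hD : 0 ≤ D := (abs_nonneg _).trans (hΦ fun _ _ => 0)
  have hu : Summable fun k : ℕ => D * B ^ n * ((negCoef n k : ℝ) * k * tame ρ ^ (k - 1)) :=
    (summable_deriv hσ0 hσ n).mul_left _
  have hb : ∀ (k : ℕ), ∀ s ∈ times ρ,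
      ‖(negCoef n k : ℝ) * ((k : ℝ) * s ^ (k - 1)) * T.term C X Φ θ (n + k)‖ ≤
        D * B ^ n * ((negCoef n k : ℝ) * k * tame ρ ^ (k - 1)) := by
    intro k s hs
    rcases k with _ | k
    · simp
    rw [Real.norm_eq_abs, abs_mul, abs_mul, abs_mul, Nat.abs_cast, Nat.abs_cast, abs_pow,
      Nat.add_sub_cancel]
    have hp := abs_pow_mul_le (fun y => abs_mul_le_tame h0 h1 hs) h0 k
    calc (negCoef n (k + 1) : ℝ) * (((k + 1 : ℕ) : ℝ) * |s| ^ k) * |T.term C X Φ θ (n + (k + 1))|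
        ≤ (negCoef n (k + 1) : ℝ) * (((k + 1 : ℕ) : ℝ) * |s| ^ k) * (D * (B ^ n * ρ ^ (k + 1))) :=
          mul_le_mul_of_nonneg_left (abs_term_le hX hΦ hθ (k + 1)) (by positivity)
      _ = D * B ^ n * ((negCoef n (k + 1) : ℝ) * ((k + 1 : ℕ) : ℝ)) * ρ * (|s| ^ k * ρ ^ k) := by ring
      _ ≤ D * B ^ n * ((negCoef n (k + 1) : ℝ) * ((k + 1 : ℕ) : ℝ)) * 1 * tame ρ ^ k := by gcongr
      _ = _ := by ring
  have h00 : (0 : ℝ) ∈ times ρ := hsub ⟨le_rfl, zero_le_one⟩
  have hd := hasDerivAt_tsum_of_isPreconnected hu (isOpen_Ioo (a := (-1 : ℝ)) (b := 2 / (1 + ρ)))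
    isPreconnected_Ioo
    (fun k s _ => (((hasDerivAt_pow k s).const_mul (negCoef n k : ℝ)).mul_const _))
    (fun k s hs => hb k s hs) h00 (summable_of_ne_finset_zero (s := {0}) fun k hk => by
      simp [zero_pow (by simpa using hk : k ≠ 0)]) ht
  refine hd.congr_deriv ?_
  rw [(Summable.of_norm_bounded hu fun k => hb k t ht).tsum_eq_zero_add]
  simp only [CharP.cast_eq_zero, zero_mul, mul_zero, zero_add]
  rw [series, ← tsum_mul_left]
  refine tsum_congr fun k => ?_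
  rw [term_next Φ θ (by omega), show n + 1 + k = n + (k + 1) by omega, Nat.add_sub_cancel,
    ← mul_assoc (n : ℝ), ← mul_assoc (n : ℝ), ← negCoef_succ_mul]
  push_cast
  ring

lemma abs_series_le (hX : Bdd X ρ) (h0 : 0 ≤ ρ) (h1 : ρ < 1) (hΦ : ∀ A, |Φ A| ≤ D)
    (hθ : ∀ a, Bdd (θ a) B) (hB : 0 ≤ B) {t : ℝ} (ht : t ∈ times ρ) :
    |T.series C X Φ θ t| ≤ D * (B / (1 - tame ρ)) ^ n := by
  obtain ⟨hσ0, hσ, -, -⟩ := tame_props h0 h1
  have hD : 0 ≤ D := (abs_nonneg _).trans (hΦ fun _ _ => 0)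
  rw [show D * (B / (1 - tame ρ)) ^ n = D * B ^ n * (1 / (1 - tame ρ) ^ n) by rw [div_pow]; ring]
  rw [← Real.norm_eq_abs, series]
  refine tsum_of_norm_bounded ((hasSum_negCoef (by rwa [abs_of_nonneg hσ0]) n).mul_left (D * B ^ n))
    fun k => ?_
  rw [Real.norm_eq_abs, abs_mul, abs_mul, Nat.abs_cast, abs_pow]
  calc (negCoef n k : ℝ) * |t| ^ k * |T.term C X Φ θ (n + k)|
      ≤ (negCoef n k : ℝ) * |t| ^ k * (D * (B ^ n * ρ ^ k)) :=
        mul_le_mul_of_nonneg_left (abs_term_le hX hΦ hθ k) (by positivity)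
    _ = D * B ^ n * (negCoef n k : ℝ) * (|t| ^ k * ρ ^ k) := by ring
    _ ≤ D * B ^ n * (negCoef n k : ℝ) * tame ρ ^ k :=
        mul_le_mul_of_nonneg_left (abs_pow_mul_le (fun y => abs_mul_le_tame h0 h1 ht) h0 k) (by positivity)
    _ = _ := by ring

lemma hasDerivAt_relAv (hm : T.Fits C) (hX : Bdd X ρ) (h0 : 0 ≤ ρ) (h1 : ρ < 1) (hB : 0 ≤ B)
    (hθ : ∀ a, Bdd (θ a) B) {t : ℝ} (ht : t ∈ times ρ) :
    HasDerivAt (T.relAv C X Φ θ) ((n : ℝ) * T.relAv C X
      (fun A' => Φ (P157.Low.sub A' Fin.castSucc)) (Fin.snoc θ X) t) t := by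
  obtain ⟨hσ0, hσ, -, -⟩ := tame_props h0 h1
  have hK : 0 ≤ 1 / (1 - tame ρ) := div_nonneg zero_le_one (by linarith)
  have hB' : 0 ≤ B / (1 - tame ρ) := div_nonneg hB (by linarith)
  have hL : 0 ≤ -Real.log (1 - tame ρ) :=
    neg_nonneg.2 (Real.log_nonpos (by linarith) (by linarith))
  refine (Tower.hasDerivAt_av hm (drift hX h0 h1) hL (rel_rates hX h0 h1 hθ)
    (by nlinarith) Φ ht).congr_deriv ?_
  have hz : ∀ a, T.av C (potT X t) Φ (Function.update (fun c => relT X (θ c) t) a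
      fun y => relT X (θ a) t y * rateT X t y - relT X (θ a) t y * rateT X t y) = 0 := fun a => by
    simp only [sub_self, av, tilt, prod_upd, zero_mul, mul_zero, integral_zero, Finset.sum_const_zero]
  rw [Finset.sum_eq_zero fun a _ => hz a, add_zero, relAv]
  congr 2
  funext a
  refine a.lastCases ?_ (fun b => ?_)
  · simp only [Fin.snoc_last]; rfl
  · simp only [Fin.snoc_castSucc]

lemma abs_relAv_le (hX : Bdd X ρ) (h0 : 0 ≤ ρ) (h1 : ρ < 1) (hΦ : ∀ A, |Φ A| ≤ D)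
    (hθ : ∀ a, Bdd (θ a) B) {t : ℝ} (ht : t ∈ times ρ) :
    |T.relAv C X Φ θ t| ≤ D *
      ((Real.exp (2 * -Real.log (1 - tame ρ)) ^ (r + 1)) * (B / (1 - tame ρ))) ^ n := by
  obtain ⟨hσ0, hσ, -, -⟩ := tame_props h0 h1
  have hL : 0 ≤ -Real.log (1 - tame ρ) :=
    neg_nonneg.2 (Real.log_nonpos (by linarith) (by linarith))
  refine (Finset.abs_sum_le_sum_abs _ _).trans ((Finset.sum_le_sum fun A _ => ?_).trans_eq
    (by rw [← Finset.sum_mul, C.total, one_mul]))
  have h := bdd_mul (bdd_wt (T := T) ((drift hX h0 h1).pot t ht) hL A)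
    (bdd_prod Finset.univ fun a _ => bdd_at (T := T) (bdd_relT hX h0 h1 (hθ a) ht) A (r + 1) a)
  have hi : |T.tilt (potT X t) A fun a => relT X (θ a) t| ≤
      ((Real.exp (2 * -Real.log (1 - tame ρ)) ^ (r + 1)) * (B / (1 - tame ρ))) ^ n := by
    refine (norm_integral_le_of_norm_le_const (μ := T.noise r n) (f := fun ω =>
      T.wt (potT X t) A ω * ∏ a, relT X (θ a) t (T.pos A ω (r + 1) a))
      (Eventually.of_forall h.le)).trans_eq ?_
    simp [Finset.prod_const, mul_pow, div_pow]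
  rw [abs_mul, abs_mul, abs_of_nonneg (C.nonneg _ A)]
  exact mul_le_mul_of_nonneg_left (mul_le_mul (hΦ _) hi (abs_nonneg _)
    ((abs_nonneg _).trans (hΦ fun _ _ => 0))) (C.nonneg _ A)

end

lemma lev_zero (R : ℕ) : ∀ k, T.val R (fun _ => 0) k = fun _ => 0
  | 0 => rfl
  | k + 1 => by funext y; simp [val, lev_zero R k, lavg]

lemma wt_zero (A : LMat r n) (ω : Fin (r + 1) × Fin n → Ω) : T.wt (fun _ => (0 : ℝ)) A ω = 1 := by
  simp [wt, edge, norm, lev, lev_zero]

lemma plain_eq_tilt (A : LMat r n) (g : Fin n → S → ℝ) : T.plain A g = T.tilt (fun _ => 0) A g := by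
  simp [plain, tilt, wt_zero]

/-- At time zero the two sides agree. -/
lemma series_zero (Φ : LMat r n → ℝ) (θ : Fin n → S → ℝ) :
    T.series C X Φ θ 0 = T.relAv C X Φ θ 0 := by
  rw [series, tsum_eq_single 0 fun k hk => by simp [zero_pow hk]]
  have hp : potT X 0 = fun _ => (0 : ℝ) := by funext y; simp [potT]
  have hr : (fun a => relT X (θ a) 0) = θ := by funext a y; simp [relT]
  have he : extFn θ X n = θ := by funext a; simp [extFn, a.isLt]
  have hc : (negCoef n 0 : ℝ) = 1 := by rcases n with _ | n <;> simp [negCoef]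
  rw [hc, pow_zero, one_mul, one_mul, relAv, hp, hr, term, Nat.add_zero, dif_pos le_rfl, av, he]
  simp [plain_eq_tilt]
  rfl

/-- The series is the tilted average. -/
theorem series_eq (hm : T.Fits C) (hX : Bdd X ρ) (h0 : 0 ≤ ρ) (h1 : ρ < 1) {Φ : LMat r n → ℝ}
    {θ : Fin n → S → ℝ} {B : ℝ} (hθ : ∀ a, Bdd (θ a) B) {t : ℝ} (ht : t ∈ Icc (0 : ℝ) 1) :
    T.series C X Φ θ t = T.relAv C X Φ θ t := by
  obtain ⟨hσ0, hσ, -, hsub⟩ := tame_props h0 h1
  obtain ⟨D, hΦ⟩ := bdd_fintype Φ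
  set B1 := max 1 B
  have hθ1 : ∀ a, Bdd (θ a) B1 := fun a => ⟨(hθ a).meas, fun y => ((hθ a).le y).trans (le_max_right _ _)⟩
  set M := Real.exp (2 * -Real.log (1 - tame ρ)) ^ (r + 1) * (B1 / (1 - tame ρ))
  have hB1 : 0 ≤ B1 := zero_le_one.trans (le_max_left _ _)
  have hE : 1 ≤ Real.exp (2 * -Real.log (1 - tame ρ)) ^ (r + 1) := one_le_pow₀ (Real.one_le_exp
    (by linarith [Real.log_nonpos (by linarith : (0 : ℝ) ≤ 1 - tame ρ) (by linarith : 1 - tame ρ ≤ 1)]))
  have hM1 : B1 / (1 - tame ρ) ≤ M := le_mul_of_one_le_left (div_nonneg hB1 (by linarith)) hE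
  have hM : 1 ≤ M := le_trans (le_trans (le_max_left _ _) (le_div_self hB1 (by linarith) (by linarith))) hM1
  set h := 1 / (4 * M)
  have hh : 0 < h := by positivity
  have key : ∀ i : ℕ, ∀ (n : ℕ) (Φ : LMat r n → ℝ) (θ : Fin n → S → ℝ), (∀ A, |Φ A| ≤ D) →
      (∀ a, Bdd (θ a) B1) → ∀ s ∈ Icc (0 : ℝ) 1, s ≤ i * h →
        T.series C X Φ θ s = T.relAv C X Φ θ s := by
    intro i
    induction i with
    | zero =>
      intro n Φ θ _ _ s hs hsi
      rw [show s = 0 by simp at hsi; linarith [hs.1]]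
      exact series_zero Φ θ
    | succ i ih =>
      intro n Φ θ hΦ hθ s hs hsi
      rcases le_or_gt s (i * h) with hle | hgt
      · exact ih n Φ θ hΦ hθ s hs hle
      set t0 := (i : ℝ) * h
      have ht0 : 0 ≤ t0 := by positivity
      have hst : s - t0 ≤ h := by simp only [t0]; push_cast at hsi; linarith
      have bound : ∀ k : ℕ, ∀ (n : ℕ) (Φ : LMat r n → ℝ) (θ : Fin n → S → ℝ), (∀ A, |Φ A| ≤ D) →
          (∀ a, Bdd (θ a) B1) → ∀ x ∈ Icc t0 s, |T.series C X Φ θ x - T.relAv C X Φ θ x| ≤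
            2 * D * M ^ (n + k) * (negCoef n k : ℝ) * (x - t0) ^ k := by
        intro k
        induction k with
        | zero =>
          intro n Φ θ hΦ hθ x hx
          have hxI : x ∈ times ρ := hsub ⟨ht0.trans hx.1, hx.2.trans hs.2⟩
          have hD : 0 ≤ D := (abs_nonneg _).trans (hΦ fun _ _ => 0)
          have hc : (negCoef n 0 : ℝ) = 1 := by rcases n with _ | n <;> simp [negCoef]
          rw [hc, pow_zero, mul_one, mul_one, Nat.add_zero]
          refine (abs_sub _ _).trans ?_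
          have e1 := (abs_series_le (T := T) (C := C) hX h0 h1 hΦ hθ hB1 hxI).trans
            (mul_le_mul_of_nonneg_left (pow_le_pow_left₀ (div_nonneg hB1 (by linarith)) hM1 n) hD)
          have e2 : |T.relAv C X Φ θ x| ≤ D * M ^ n := abs_relAv_le hX h0 h1 hΦ hθ hxI
          linarith
        | succ k ihk =>
          intro n Φ θ hΦ hθ x hx
          set Φ' : LMat r (n + 1) → ℝ := fun A' => Φ (P157.Low.sub A' Fin.castSucc)
          have hθ' : ∀ a, Bdd ((Fin.snoc θ X : Fin (n + 1) → S → ℝ) a) B1 := fun a =>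
            a.lastCases (by
              rw [Fin.snoc_last]
              exact ⟨hX.meas, fun y => (hX.le y).trans (h1.le.trans (le_max_left _ _))⟩)
              fun b => by rw [Fin.snoc_castSucc]; exact hθ b
          set F := fun x => T.series C X Φ θ x - T.relAv C X Φ θ x
          set F' := fun x => (n : ℝ) * (T.series C X Φ' (Fin.snoc θ X) x -
            T.relAv C X Φ' (Fin.snoc θ X) x)
          have hder : ∀ x ∈ Icc t0 s, HasDerivAt F (F' x) x := fun x hx => by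
            have hxI : x ∈ times ρ := hsub ⟨ht0.trans hx.1, hx.2.trans hs.2⟩
            exact ((hasDerivAt_series hX h0 h1 hΦ hB1 hθ hxI).sub
              (hasDerivAt_relAv hm hX h0 h1 hB1 hθ hxI)).congr_deriv (by simp only [F', Φ']; ring)
          have hz : F t0 = 0 := sub_eq_zero.2 (ih n Φ θ hΦ hθ t0
            ⟨ht0, hgt.le.trans hs.2⟩ le_rfl)
          refine image_norm_le_of_norm_deriv_right_le_deriv_boundary (f := F) (a := t0) (b := s)
            (fun x hx => (hder x hx).continuousAt.continuousWithinAt)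
            (fun x hx => (hder x (Ico_subset_Icc_self hx)).hasDerivWithinAt)
            (B := fun x => 2 * D * M ^ (n + (k + 1)) * (negCoef n (k + 1) : ℝ) * (x - t0) ^ (k + 1))
            (B' := fun x => 2 * D * M ^ (n + (k + 1)) * (negCoef n (k + 1) : ℝ) *
              (((k : ℝ) + 1) * (x - t0) ^ k))
            (by simp [hz])
            (fun x => (((hasDerivAt_id x).sub_const t0).pow (k + 1)).const_mul _ |>.congr_deriv
              (by push_cast; simp))
            (fun x hx => ?_) hx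
          rw [Real.norm_eq_abs, abs_mul, Nat.abs_cast]
          refine (mul_le_mul_of_nonneg_left (ihk (n + 1) Φ' _ (fun A => hΦ _) hθ' x
            (Ico_subset_Icc_self hx)) (Nat.cast_nonneg n)).trans_eq ?_
          rw [show n + 1 + k = n + (k + 1) by omega, ← mul_assoc _ ((k : ℝ) + 1)]
          linear_combination (-(2 * D * M ^ (n + (k + 1)) * (x - t0) ^ k)) * negCoef_succ_mul n k
      have hlim : Tendsto (fun k : ℕ => 2 * D * (2 * M) ^ n * (1 / 2 : ℝ) ^ k) atTop (𝓝 0) := by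
        simpa using (tendsto_pow_atTop_nhds_zero_of_lt_one (by norm_num) (by norm_num :
          (1 / 2 : ℝ) < 1)).const_mul (2 * D * (2 * M) ^ n)
      refine sub_eq_zero.1 (abs_eq_zero.1 (le_antisymm (ge_of_tendsto' hlim fun k => ?_) (abs_nonneg _)))
      refine (bound k n Φ θ hΦ hθ s ⟨hgt.le, le_rfl⟩).trans ?_
      have hD : 0 ≤ D := (abs_nonneg _).trans (hΦ fun _ _ => 0)
      have hc : (negCoef n k : ℝ) ≤ 2 ^ (n + k) := by
        rcases n with _ | n
        · rcases k with _ | k <;> simp [negCoef]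
        · have : (n + k).choose k ≤ 2 ^ (n + 1 + k) := (Nat.choose_le_two_pow _ _).trans
            (Nat.pow_le_pow_right (by norm_num) (by omega))
          simp only [negCoef]
          exact_mod_cast this
      calc 2 * D * M ^ (n + k) * (negCoef n k : ℝ) * (s - t0) ^ k
          ≤ 2 * D * M ^ (n + k) * 2 ^ (n + k) * h ^ k := by
            have : 0 ≤ s - t0 := sub_nonneg.2 hgt.le
            gcongr
        _ = 2 * D * (2 * M) ^ n * (2 * M * h) ^ k := by ring
        _ = _ := by rw [show 2 * M * h = 1 / 2 by simp only [h]; field_simp; ring]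
  obtain ⟨i, hi⟩ := exists_nat_ge (1 / h)
  exact key i n Φ θ hΦ hθ1 t ht (by
    rw [div_le_iff₀ hh] at hi; linarith [ht.2])

end Tower

end Vale.Agent.P166F.Low.Cascade
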