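import Vale.Agent.P157.Low.CascadeSeries
import Vale.Agent.P166F.Low.Cascade.Chain

/-!
P166: derivatives of tilted averages in a Ghirlanda–Guerra array, and the identification of the series.
-/

namespace Vale.Agent.P166F.Low.Cascade

open MeasureTheory Set Filter Vale.Agent.P157.Low
open scoped Topology

variable {r n : ℕ} {S Ω : Type} [MeasurableSpace S] [MeasurableSpace Ω]

/-- A logarithmic derivative of a product. -/
lemma hasDerivAt_prod {α : Type} [DecidableEq α] (s : Finset α) {f f' : α → ℝ → ℝ} {c : α → ℝ} {t : ℝ}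
    (h : ∀ a ∈ s, HasDerivAt (f a) (f' a t) t) (hc : ∀ a ∈ s, f' a t = f a t * c a) :
    HasDerivAt (fun x => ∏ a ∈ s, f a x) ((∏ a ∈ s, f a t) * ∑ a ∈ s, c a) t := by
  induction s using Finset.induction_on with
  | empty => simpa using hasDerivAt_const t (1 : ℝ)
  | insert a s ha ih =>
    simp only [Finset.prod_insert ha, Finset.sum_insert ha]
    refine ((h a (Finset.mem_insert_self a s)).mul (ih (fun b hb => h b (Finset.mem_insert_of_mem hb))
      fun b hb => hc b (Finset.mem_insert_of_mem hb))).congr_deriv ?_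
    rw [hc a (Finset.mem_insert_self a s)]
    ring

/-- Each replica counts once for the ball that holds it. -/
lemma sum_reps {A : LMat r n} (hA : Good A) (j : ℕ) {F : Fin n → ℝ}
    (hF : ∀ a, F (rep (lvl r j) A a) = F a) :
    ∑ b ∈ reps A j, (∑ c, if lvl r j ≤ A b c then (1 : ℝ) else 0) * F b = ∑ a, F a := by
  rw [← Finset.sum_fiberwise_of_maps_to (s := Finset.univ) (t := reps A j)
    (g := rep (lvl r j) A) (fun a _ => rep_mem_reps hA j a) F]
  refine Finset.sum_congr rfl fun b hb => ?_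
  have hb' := (Finset.mem_filter.1 hb).2
  rw [Finset.sum_mul, Finset.sum_filter]
  refine Finset.sum_congr rfl fun c _ => ?_
  by_cases h : lvl r j ≤ A b c
  · have e : rep (lvl r j) A c = b := by rw [← (hA.rep_eq_iff _ b c).2 h, hb']
    rw [if_pos h, if_pos e, one_mul, ← hF c, e]
  · rw [if_neg h, if_neg fun e => h ((hA.rep_eq_iff _ b c).1 (by rw [hb', e])), zero_mul]

namespace Tower

variable (T : Tower S Ω)

/-- The average of tilted averages over an array. -/
noncomputable def av (C : Casc r) (U : S → ℝ) (Φ : LMat r n → ℝ) (g : Fin n → S → ℝ) : ℝ :=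
  ∑ A, C.P n A * (Φ A * T.tilt U A g)

/-- Exponents agreeing with the distribution function of the overlap. -/
def Fits (C : Casc r) : Prop := ∀ j, j ≤ r → T.m j = C.cdf (lvl r j)

variable {T}

lemma bdd_neg {η : S → ℝ} {B : ℝ} (h : Bdd η B) : Bdd (fun y => -η y) B :=
  ⟨h.meas.neg, fun y => by rw [abs_neg]; exact h.le y⟩

/-- One more insertion, by the balls of the new replica, averaged. -/
theorem av_next {C : Casc r} (hm : T.Fits C) {U : S → ℝ} {L B : ℝ} (hU : Bdd U L) (hL : 0 ≤ L)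
    {g : Fin n → S → ℝ} {ψ : S → ℝ} (hg : ∀ a, Bdd (g a) B) (hψ : Bdd ψ B) (Φ : LMat r n → ℝ) :
    (n : ℝ) * T.av C U (fun A' => Φ (P157.Low.sub A' Fin.castSucc)) (Fin.snoc g ψ) =
      ∑ A, C.P n A * (Φ A * (∑ j ∈ Finset.range (r + 1), ∑ b ∈ reps A j,
          T.m j * (T.mark U A g ψ j b - T.mark U A g ψ (j + 1) b) +
        ∑ a, T.mark U A g ψ (r + 1) a)) := by
  set G0 : LMat r n → ℝ := fun A => ∫ η, T.wt U A η * (∏ a, g a (T.pos A η (r + 1) a)) *
    T.up (r + 1) U ψ (r + 1) (r + 1) T.x0 ∂T.noise r n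
  set Δ : ℕ → Fin n → LMat r n → ℝ := fun j b A =>
    if b ∈ reps A j then Φ A * (T.mark U A g ψ (j + 1) b - T.mark U A g ψ j b) else 0
  set ind : ℕ → Fin (r + 1) → ℝ := fun j i => if lvl r j ≤ i then 1 else 0
  have hA' : ∀ A', C.P (n + 1) A' * (Φ (P157.Low.sub A' Fin.castSucc) *
      T.tilt U A' (Fin.snoc g ψ)) = C.P (n + 1) A' *
      (Φ (P157.Low.sub A' Fin.castSucc) * G0 (P157.Low.sub A' Fin.castSucc) +
        ∑ j ∈ Finset.range (r + 1), ∑ b : Fin n, Δ j b (P157.Low.sub A' Fin.castSucc) *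
          ind j (A' b.castSucc (Fin.last n))) := by
    intro A'
    rcases eq_or_ne (C.P (n + 1) A') 0 with h | h
    · simp [h]
    rw [tilt_snoc_eq (C.good h) hU hL hg hψ, mul_add, Finset.mul_sum]
    congr 2
    refine Finset.sum_congr rfl fun j _ => ?_
    rw [Finset.mul_sum, reps, Finset.sum_filter]
    refine Finset.sum_congr rfl fun b _ => ?_
    simp only [Δ, ind, reps, Finset.mem_filter, Finset.mem_univ, true_and]
    split_ifs <;> ring
  have hc : ∀ j, j ≤ r → ∑ A, C.P 2 A * ind j (A 0 1) = 1 - T.m j := by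
    intro j hj
    rw [hm j hj, Casc.cdf, eq_sub_iff_add_eq, ← Finset.sum_add_distrib]
    conv_rhs => rw [← C.total 2]
    refine Finset.sum_congr rfl fun A _ => ?_
    by_cases h : lvl r j ≤ A 0 1
    · simp [ind, h, not_lt.2 h]
    · simp [ind, h, not_le.1 h]
  have hmarg : ∑ A', C.P (n + 1) A' * (Φ (P157.Low.sub A' Fin.castSucc) *
      G0 (P157.Low.sub A' Fin.castSucc)) = ∑ A, C.P n A * (Φ A * G0 A) :=
    C.marg _ (Fin.castSucc_injective n) fun A => Φ A * G0 A
  have hgg : ∀ j, j ≤ r → ∀ b : Fin n, (n : ℝ) * ∑ A', C.P (n + 1) A' *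
      (Δ j b (P157.Low.sub A' Fin.castSucc) * ind j (A' b.castSucc (Fin.last n))) =
      ∑ A, C.P n A * (Δ j b A * ((1 - T.m j) + ∑ c ∈ Finset.univ.erase b, ind j (A b c))) := by
    intro j hj b
    rw [C.gg n b (Δ j b) (ind j), hc j hj, Finset.sum_mul, Finset.sum_comm, ← Finset.sum_add_distrib]
    refine Finset.sum_congr rfl fun A _ => ?_
    rw [mul_add, mul_add, Finset.mul_sum, Finset.mul_sum]
    ring_nf
  have hmain : (n : ℝ) * T.av C U (fun A' => Φ (P157.Low.sub A' Fin.castSucc)) (Fin.snoc g ψ) =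
      ∑ A, C.P n A * ((n : ℝ) * (Φ A * G0 A) + ∑ j ∈ Finset.range (r + 1), ∑ b : Fin n,
        Δ j b A * ((1 - T.m j) + ∑ c ∈ Finset.univ.erase b, ind j (A b c))) := by
    have sw : ∀ {α : Type} [Fintype α] (p : α → ℝ) (f : ℕ → Fin n → α → ℝ),
        ∑ x, p x * (∑ j ∈ Finset.range (r + 1), ∑ b : Fin n, f j b x) =
          ∑ j ∈ Finset.range (r + 1), ∑ b : Fin n, ∑ x, p x * f j b x := fun p f => by
      simp only [Finset.mul_sum]
      rw [Finset.sum_comm]
      exact Finset.sum_congr rfl fun j _ => Finset.sum_comm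
    rw [Tower.av, Finset.sum_congr rfl fun A' _ => hA' A',
      Finset.sum_congr rfl fun A' _ => mul_add _ _ _, Finset.sum_add_distrib, hmarg, mul_add,
      Finset.sum_congr (s₂ := Finset.univ)
        (g := fun A => C.P n A * ((n : ℝ) * (Φ A * G0 A)) + C.P n A * (∑ j ∈ Finset.range (r + 1),
          ∑ b : Fin n, Δ j b A * ((1 - T.m j) + ∑ c ∈ Finset.univ.erase b, ind j (A b c))))
        rfl fun A _ => mul_add _ _ _, Finset.sum_add_distrib, Finset.mul_sum]
    refine congrArg₂ (· + ·) (Finset.sum_congr rfl fun A _ => by ring) ?_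
    rw [sw, sw, Finset.mul_sum]
    refine Finset.sum_congr rfl fun j hj => ?_
    rw [Finset.mul_sum]
    exact Finset.sum_congr rfl fun b _ => hgg j (Nat.lt_succ_iff.1 (Finset.mem_range.1 hj)) b
  rw [hmain]
  refine Finset.sum_congr rfl fun A _ => ?_
  rcases eq_or_ne (C.P n A) 0 with h | h
  · simp [h]
  have hA : Good A := C.good h
  congr 1
  set D : ℕ → Fin n → ℝ := fun j b => T.mark U A g ψ (j + 1) b - T.mark U A g ψ j b
  have hj : ∀ j ∈ Finset.range (r + 1),
      (∑ b : Fin n, Δ j b A * ((1 - T.m j) + ∑ c ∈ Finset.univ.erase b, ind j (A b c))) =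
      Φ A * ((∑ a, D j a) - ∑ b ∈ reps A j, T.m j * D j b) := by
    intro j _
    rw [← sum_reps hA j (F := D j) fun a => ?_, ← Finset.sum_sub_distrib, Finset.mul_sum, reps,
      Finset.sum_filter]
    · refine Finset.sum_congr rfl fun b _ => ?_
      simp only [Δ, reps, Finset.mem_filter, Finset.mem_univ, true_and]
      split_ifs
      · rw [← Finset.add_sum_erase _ (fun c => if lvl r j ≤ A b c then (1 : ℝ) else 0)
          (Finset.mem_univ b), if_pos (by rw [hA.diag]; exact Fin.le_last _)]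
        simp only [D, ind]
        ring
      · exact zero_mul _
    · have e : ∀ i, i ≤ j + 1 → T.mark U A g ψ i (rep (lvl r j) A a) = T.mark U A g ψ i a :=
        fun i hi => by
          simp only [mark]
          congr 1
          funext η
          rw [← pos_congr hA η i fun i' hi' =>
            (lvl_mono (by omega : i' ≤ j)).trans (hA.meet_rep (lvl r j) a)]
      simp only [D, e (j + 1) le_rfl, e j (by omega)]
  have tele : ∑ j ∈ Finset.range (r + 1), ∑ a, D j a =
      (∑ a, T.mark U A g ψ (r + 1) a) - (n : ℝ) * G0 A := by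
    rw [Finset.sum_comm]
    simp only [D]
    rw [Finset.sum_congr rfl fun a _ => Finset.sum_range_sub (fun i => T.mark U A g ψ i a) (r + 1),
      Finset.sum_sub_distrib, show ∑ a : Fin n, T.mark U A g ψ 0 a = (n : ℝ) * G0 A by
        rw [Finset.sum_congr rfl fun a _ => show T.mark U A g ψ 0 a = G0 A from rfl]
        simp]
  have neg : ∑ j ∈ Finset.range (r + 1), ∑ b ∈ reps A j,
      T.m j * (T.mark U A g ψ j b - T.mark U A g ψ (j + 1) b) =
      -∑ j ∈ Finset.range (r + 1), ∑ b ∈ reps A j, T.m j * D j b := by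
    simp only [D, ← Finset.sum_neg_distrib]
    exact Finset.sum_congr rfl fun j _ => Finset.sum_congr rfl fun b _ => by ring
  rw [Finset.sum_congr rfl hj, ← Finset.mul_sum, Finset.sum_sub_distrib, tele, neg]
  ring

/-- A product with one factor changed. -/
lemma prod_upd (A : LMat r n) (g : Fin n → S → ℝ) (a : Fin n) (u : S → ℝ)
    (ω : Fin (r + 1) × Fin n → Ω) :
    ∏ c, Function.update g a u c (T.pos A ω (r + 1) c) =
      u (T.pos A ω (r + 1) a) * ∏ c ∈ Finset.univ.erase a, g c (T.pos A ω (r + 1) c) := by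
  rw [← Finset.mul_prod_erase _ _ (Finset.mem_univ a), Function.update_self]
  exact congrArg _ (Finset.prod_congr rfl fun c hc => by
    rw [Function.update_of_ne (Finset.ne_of_mem_erase hc)])

variable {V ψ : ℝ → S → ℝ} {I : Set ℝ} {L K B : ℝ}

/-- Insertions with their derivatives. -/
structure Rates (g g' : ℝ → Fin n → S → ℝ) (I : Set ℝ) (B : ℝ) : Prop where
  val : ∀ t ∈ I, ∀ a, Bdd (g t a) B
  der : ∀ t ∈ I, ∀ a, Bdd (g' t a) B
  deriv : ∀ t ∈ I, ∀ a y, HasDerivAt (fun s => g s a y) (g' t a y) t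

/-- The derivative of a tilted average of one array. -/
lemma hasDerivAt_tilt (h : Drift V ψ I L K) (hL : 0 ≤ L) {g g' : ℝ → Fin n → S → ℝ}
    (hg : Rates g g' I B) (A : LMat r n) {t : ℝ} (ht : t ∈ I) :
    HasDerivAt (fun s => T.tilt (V s) A (g s))
      (∑ j ∈ Finset.range (r + 1), ∑ b ∈ reps A j,
          T.m j * (T.mark (V t) A (g t) (ψ t) j b - T.mark (V t) A (g t) (ψ t) (j + 1) b) +
        ∑ a, T.tilt (V t) A (Function.update (g t) a (g' t a))) t := by
  classical
  set rate : ℝ → (Fin (r + 1) × Fin n → Ω) → ℝ := fun s ω =>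
    ∑ j ∈ Finset.range (r + 1), ∑ b ∈ reps A j, T.m j *
      (T.rateAt (r + 1) V ψ s j (T.pos A ω j b) - T.rateAt (r + 1) V ψ s (j + 1) (T.pos A ω (j + 1) b))
  set P : ℝ → (Fin (r + 1) × Fin n → Ω) → ℝ := fun s ω => ∏ a, g s a (T.pos A ω (r + 1) a)
  set P' : ℝ → (Fin (r + 1) × Fin n → Ω) → ℝ := fun s ω =>
    ∑ a, (∏ c ∈ Finset.univ.erase a, g s c (T.pos A ω (r + 1) c)) * g' s a (T.pos A ω (r + 1) a)
  have hw : ∀ ω, ∀ s ∈ I, HasDerivAt (fun x => T.wt (V x) A ω) (T.wt (V s) A ω * rate s ω) s := by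
    intro ω s hs
    refine hasDerivAt_prod (Finset.range (r + 1))
      (f := fun j x => ∏ b ∈ reps A j, T.edge (r + 1) (V x) j (T.pos A ω j b) (T.pos A ω (j + 1) b))
      (f' := fun j x => (∏ b ∈ reps A j, T.edge (r + 1) (V x) j (T.pos A ω j b) (T.pos A ω (j + 1) b)) *
        ∑ b ∈ reps A j, T.m j * (T.rateAt (r + 1) V ψ x j (T.pos A ω j b) -
          T.rateAt (r + 1) V ψ x (j + 1) (T.pos A ω (j + 1) b)))
      (fun j hj => ?_) fun j _ => rfl
    exact hasDerivAt_prod (reps A j) (f' := fun b x => T.edge (r + 1) (V x) j (T.pos A ω j b)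
      (T.pos A ω (j + 1) b) * (T.m j * (T.rateAt (r + 1) V ψ x j (T.pos A ω j b) -
        T.rateAt (r + 1) V ψ x (j + 1) (T.pos A ω (j + 1) b))))
      (fun b _ => hasDerivAt_edge h (Finset.mem_range.1 hj) _ _ hs) fun b _ => rfl
  have hp : ∀ ω, ∀ s ∈ I, HasDerivAt (fun x => P x ω) (P' s ω) s := fun ω s hs => by
    simpa [P', smul_eq_mul] using
      HasDerivAt.fun_finsetProd fun a (_ : a ∈ Finset.univ) => hg.deriv s hs a (T.pos A ω (r + 1) a)
  have bw : ∀ s ∈ I, Bdd (T.wt (V s) A) ((Real.exp (2 * L) ^ (r + 1)) ^ n) := fun s hs =>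
    bdd_wt (h.pot s hs) hL A
  have bp : ∀ s ∈ I, Bdd (P s) (∏ _a : Fin n, B) := fun s hs =>
    bdd_prod _ fun a _ => bdd_at (T := T) (hg.val s hs a) A (r + 1) a
  have bsum : ∀ {α : Type} (s : Finset α) {f : α → (Fin (r + 1) × Fin n → Ω) → ℝ} {C : α → ℝ},
      (∀ a ∈ s, Bdd (f a) (C a)) → Bdd (fun x => ∑ a ∈ s, f a x) (∑ a ∈ s, C a) :=
    fun {α} s {f C} hf => ⟨Finset.measurable_sum _ fun a ha => (hf a ha).meas, fun x =>
      (Finset.abs_sum_le_sum_abs _ _).trans (Finset.sum_le_sum fun a ha => (hf a ha).le x)⟩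
  have brate : ∀ s ∈ I, Bdd (rate s) (∑ j ∈ Finset.range (r + 1), ∑ _b ∈ reps A j, 2 * K) := by
    intro s hs
    refine bsum _ fun j _ => bsum _ fun b _ => ?_
    have h1 := bdd_at (T := T) (bdd_rateAt (R := r + 1) (T := T) h hs j) A j b
    have h2 := bdd_at (T := T) (bdd_rateAt (R := r + 1) (T := T) h hs (j + 1)) A (j + 1) b
    refine ⟨(h1.meas.sub h2.meas).const_mul _, fun ω => ?_⟩
    rw [abs_mul, abs_of_nonneg (T.mNonneg j)]
    refine (mul_le_of_le_one_left (abs_nonneg _) (T.mLeOne j)).trans ((abs_sub _ _).trans ?_)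
    linarith [h1.le ω, h2.le ω]
  have bp' : ∀ s ∈ I, Bdd (P' s) (∑ a : Fin n, (∏ _c ∈ Finset.univ.erase a, B) * B) := fun s hs =>
    bsum _ fun a _ => bdd_mul (bdd_prod _ fun c _ => bdd_at (T := T) (hg.val s hs c) A (r + 1) c)
      (bdd_at (T := T) (hg.der s hs a) A (r + 1) a)
  set F' := fun s ω => T.wt (V s) A ω * rate s ω * P s ω + T.wt (V s) A ω * P' s ω
  refine (hasDerivAt_integral_of_dominated_loc_of_deriv_le (μ := T.noise r n)
    (F := fun s ω => T.wt (V s) A ω * P s ω) (F' := F')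
    (bound := fun _ => (Real.exp (2 * L) ^ (r + 1)) ^ n *
      (∑ j ∈ Finset.range (r + 1), ∑ _b ∈ reps A j, 2 * K) * (∏ _a : Fin n, B) +
        (Real.exp (2 * L) ^ (r + 1)) ^ n * ∑ a : Fin n, (∏ _c ∈ Finset.univ.erase a, B) * B)
    (x₀ := t) (s := I) (h.isOpen.mem_nhds ht) ?_ (integrable_noise (T := T) (bdd_mul (bw t ht) (bp t ht))) ?_
    (Eventually.of_forall fun ω s hs => ?_) (integrable_const _)
    (Eventually.of_forall fun ω s hs => ((hw ω s hs).mul (hp ω s hs)).congr_deriv rfl)).2.congr_deriv ?_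
  · filter_upwards [h.isOpen.mem_nhds ht] with s hs
    exact (bdd_mul (bw s hs) (bp s hs)).meas.aestronglyMeasurable
  · exact (((bdd_mul (bdd_mul (bw t ht) (brate t ht)) (bp t ht)).meas).add
      (bdd_mul (bw t ht) (bp' t ht)).meas).aestronglyMeasurable
  · rw [Real.norm_eq_abs]
    exact (abs_add_le _ _).trans (add_le_add ((bdd_mul (bdd_mul (bw s hs) (brate s hs)) (bp s hs)).le ω)
      ((bdd_mul (bw s hs) (bp' s hs)).le ω))
  have i1 := integrable_noise (T := T) (bdd_mul (bdd_mul (bw t ht) (brate t ht)) (bp t ht))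
  have i2 := integrable_noise (T := T) (bdd_mul (bw t ht) (bp' t ht))
  simp only [F']
  rw [integral_add i1 i2]
  congr 1
  · have hi : ∀ j ∈ Finset.range (r + 1), ∀ b ∈ reps A j, ∀ i,
        Integrable (fun ω => T.wt (V t) A ω * P t ω * T.rateAt (r + 1) V ψ t i (T.pos A ω i b))
          (T.noise r n) := fun j _ b _ i =>
      integrable_noise (T := T) (bdd_mul (bdd_mul (bw t ht) (bp t ht))
        (bdd_at (T := T) (bdd_rateAt (R := r + 1) (T := T) h ht i) A i b))
    have e : ∀ ω, T.wt (V t) A ω * rate t ω * P t ω = ∑ j ∈ Finset.range (r + 1), ∑ b ∈ reps A j,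
        T.m j * (T.wt (V t) A ω * P t ω * T.rateAt (r + 1) V ψ t j (T.pos A ω j b) -
          T.wt (V t) A ω * P t ω * T.rateAt (r + 1) V ψ t (j + 1) (T.pos A ω (j + 1) b)) := fun ω => by
      simp only [rate, Finset.mul_sum, Finset.sum_mul]
      exact Finset.sum_congr rfl fun j _ => Finset.sum_congr rfl fun b _ => by ring
    have hi' : ∀ j ∈ Finset.range (r + 1), ∀ b ∈ reps A j, Integrable (fun ω => T.m j *
        (T.wt (V t) A ω * P t ω * T.rateAt (r + 1) V ψ t j (T.pos A ω j b) -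
          T.wt (V t) A ω * P t ω * T.rateAt (r + 1) V ψ t (j + 1) (T.pos A ω (j + 1) b)))
        (T.noise r n) := fun j hj b hb => ((hi j hj b hb j).sub (hi j hj b hb (j + 1))).const_mul _
    simp only [e]
    rw [integral_finsetSum _ fun j hj => integrable_finsetSum _ fun b hb => hi' j hj b hb]
    refine Finset.sum_congr rfl fun j hj => ?_
    rw [integral_finsetSum _ fun b hb => hi' j hj b hb]
    refine Finset.sum_congr rfl fun b hb => ?_
    rw [integral_const_mul, integral_sub (hi j hj b hb j) (hi j hj b hb (j + 1))]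
    rfl
  · simp only [P', Finset.mul_sum]
    rw [integral_finsetSum _ fun a _ => integrable_noise (T := T) (bdd_mul (bw t ht) (bdd_mul
      (bdd_prod _ fun c _ => bdd_at (T := T) (hg.val t ht c) A (r + 1) c)
      (bdd_at (T := T) (hg.der t ht a) A (r + 1) a)))]
    refine Finset.sum_congr rfl fun a _ => integral_congr_ae (Eventually.of_forall fun ω => ?_)
    simp only [prod_upd]
    ring

lemma mark_top (U : S → ℝ) (A : LMat r n) (g : Fin n → S → ℝ) (η : S → ℝ) (a : Fin n) :
    T.mark U A g η (r + 1) a = T.tilt U A (Function.update g a fun y => g a y * η y) := by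
  simp only [mark, tilt, Nat.sub_self, up]
  refine integral_congr_ae (Eventually.of_forall fun ω => ?_)
  simp only [prod_upd, ← Finset.mul_prod_erase _ (fun c => g c (T.pos A ω (r + 1) c))
    (Finset.mem_univ a)]
  ring

lemma tilt_update_sub {U : S → ℝ} {L : ℝ} (hU : Bdd U L) (hL : 0 ≤ L) (A : LMat r n)
    {g : Fin n → S → ℝ} {B : ℝ} (hg : ∀ a, Bdd (g a) B) (a : Fin n) {f f' : S → ℝ} {Bf Bf' : ℝ}
    (hf : Bdd f Bf) (hf' : Bdd f' Bf') :
    T.tilt U A (Function.update g a fun y => f y - f' y) =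
      T.tilt U A (Function.update g a f) - T.tilt U A (Function.update g a f') := by
  have hi : ∀ {u : S → ℝ} {Bu : ℝ}, Bdd u Bu → Integrable (fun ω => T.wt U A ω *
      (u (T.pos A ω (r + 1) a) * ∏ c ∈ Finset.univ.erase a, g c (T.pos A ω (r + 1) c)))
      (T.noise r n) := fun hu => integrable_noise (T := T) (bdd_mul (bdd_wt hU hL A) (bdd_mul
        (bdd_at (T := T) hu A (r + 1) a)
        (bdd_prod _ fun c _ => bdd_at (T := T) (hg c) A (r + 1) c)))
  simp only [tilt, prod_upd, sub_mul, mul_sub]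
  exact integral_sub (hi hf) (hi hf')

/-- The derivative of the averaged tilt is one more replica and the corrections of the insertions. -/
theorem hasDerivAt_av {C : Casc r} (hm : T.Fits C) (h : Drift V ψ I L K) (hL : 0 ≤ L)
    {g g' : ℝ → Fin n → S → ℝ} (hg : Rates g g' I B) (hKB : K ≤ B) (Φ : LMat r n → ℝ) {t : ℝ}
    (ht : t ∈ I) :
    HasDerivAt (fun s => T.av C (V s) Φ (g s))
      ((n : ℝ) * T.av C (V t) (fun A' => Φ (P157.Low.sub A' Fin.castSucc)) (Fin.snoc (g t) (ψ t)) +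
        ∑ a, T.av C (V t) Φ (Function.update (g t) a fun y => g' t a y - g t a y * ψ t y)) t := by
  have hψ : Bdd (ψ t) B := ⟨(h.rate t ht).meas, fun y => ((h.rate t ht).le y).trans hKB⟩
  refine (HasDerivAt.fun_sum fun A _ =>
    ((hasDerivAt_tilt (T := T) h hL hg A ht).const_mul (Φ A)).const_mul (C.P n A)).congr_deriv ?_
  rw [av_next hm (h.pot t ht) hL (hg.val t ht) hψ Φ]
  simp only [av]
  rw [Finset.sum_comm (γ := Fin n), ← Finset.sum_add_distrib]
  refine Finset.sum_congr rfl fun A _ => ?_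
  have e : ∀ a, T.tilt (V t) A (Function.update (g t) a fun y => g' t a y - g t a y * ψ t y) =
      T.tilt (V t) A (Function.update (g t) a (g' t a)) - T.mark (V t) A (g t) (ψ t) (r + 1) a :=
    fun a => by
      rw [tilt_update_sub (T := T) (h.pot t ht) hL A (hg.val t ht) a (hg.der t ht a)
        (bdd_mul (hg.val t ht a) hψ), mark_top]
  simp only [e, mul_sub, Finset.sum_sub_distrib, ← Finset.mul_sum, mul_add]
  ring

end Tower

end Vale.Agent.P166F.Low.Cascade
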